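import Vale.Agent.P193.Bh.Slots.Gens
import Vale.Agent.P196.Fp.Spin
import Vale.Agent.P196.Fp.Bool

/-!
# P193: slots, components and the action of `Q` on them
-/

namespace Vale.Agent.P193.Bh.Slots

open TopologicalSpace Equiv
open Vale.Agent.P193.Fp
open Vale.Agent.P196.Fp (Tri act triInv Ctx Comp componentAlgebra)

variable {Y Q : Type} [TopologicalSpace Y] [Group Q] [MulAction Q Y] [ContinuousConstSMul Q Y]

omit [TopologicalSpace Y] [Group Q] [MulAction Q Y] [ContinuousConstSMul Q Y] in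
theorem commute_of_fix {π ρ : Perm Child} (h : ∀ a, π a = a ∨ ρ a = a) : Commute π ρ :=
  Perm.Disjoint.commute h

omit [ContinuousConstSMul Q Y] in
theorem piP_commute_PU {v : Child → Q} {π : Perm Child} (h : ∀ a, π a ≠ a → v a = 1)
    (U : Clopens Y) : Commute (piP v) (PU U π) := by
  refine Equiv.ext fun ⟨y, a⟩ => ?_
  rw [Perm.mul_apply, Perm.mul_apply, piP_apply]
  by_cases ha : π a = a
  · by_cases h1 : y ∈ U <;> by_cases h2 : v a • y ∈ U <;>
      simp [PU_of_mem, PU_of_not, h1, h2, ha]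
  · have h' : π (π a) ≠ π a := fun e => ha (π.injective e)
    by_cases h1 : y ∈ U <;> simp [PU_of_mem, PU_of_not, h1, h a ha, h (π a) h']

/-- The permutation moves only cones of the set. -/
def FixesOff (S : Finset Child) (π : Perm Child) : Prop := ∀ a, a ∉ S → π a = a

namespace Data

variable (d : Data Y Q)

/-- Generators of the subgroup of a set of cones. -/
def lettersIn (S : Finset Child) : Set d.G :=
  {x | ∃ π, FixesOff S π ∧ x = d.D π} ∪ {x | ∃ i ∈ S, ∃ g, x = d.kap i g} ∪
    {x | ∃ U σ, FixesOff S (cp σ.1) ∧ x = d.tri U σ}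

/-- The subgroup of a set of cones. -/
def Kc (S : Finset Child) : Subgroup d.G := Subgroup.closure (d.lettersIn S)

variable {d} {S T : Finset Child}

theorem D_mem {π : Perm Child} (h : FixesOff S π) : d.D π ∈ d.Kc S :=
  Subgroup.subset_closure (Or.inl (Or.inl ⟨π, h, rfl⟩))

theorem kap_mem {i : Child} (h : i ∈ S) (g : Q) : d.kap i g ∈ d.Kc S :=
  Subgroup.subset_closure (Or.inl (Or.inr ⟨i, h, g, rfl⟩))

theorem tri_mem {U : {U // U ∈ d.P.base}} {σ : Tri 64} (h : FixesOff S (cp σ.1)) :
    d.tri U σ ∈ d.Kc S :=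
  Subgroup.subset_closure (Or.inr ⟨U, σ, h, rfl⟩)

theorem kap_commute_short {i : Child} {x : d.G} {k : ℕ} (hk : d.Short k x) (hk' : k ≤ 14)
    (h : ∀ g : Q, Commute (piP (Pi.mulSingle i g : Child → Q) : Perm (Y × Child)) (d.toP x))
    (g : Q) :
    Commute (d.kap i g) x := by
  obtain ⟨w, rfl⟩ := d.surj g
  induction w using FreeGroup.induction_on with
  | C1 => simp
  | of y => exact (d.short_kap_gen i y).commute hk (by omega) (by rw [toP_kap]; exact h _)
  | inv_of y hy => rw [map_inv, map_inv]; exact hy.inv_left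
  | mul u v hu hv => rw [map_mul, map_mul]; exact hu.mul_left hv

theorem single_off {i : Child} {π : Perm Child} (h : π i = i) (g : Q) (a : Child)
    (ha : π a ≠ a) : (Pi.mulSingle i g : Child → Q) a = 1 :=
  Pi.mulSingle_eq_of_ne (M := fun _ : Child => Q) (fun e : a = i => ha (e ▸ h)) _

theorem K_comm (h : Disjoint S T) {x y : d.G} (hx : x ∈ d.Kc S) (hy : y ∈ d.Kc T) :
    Commute x y := by
  have hd : ∀ {π ρ : Perm Child}, FixesOff S π → FixesOff T ρ → ∀ a, π a = a ∨ ρ a = a := by
    intro π ρ hπ hρ a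
    by_cases ha : a ∈ S
    · exact Or.inr (hρ a (Finset.disjoint_left.1 h ha))
    · exact Or.inl (hπ a ha)
  refine Subgroup.closure_induction (p := fun x _ => Commute x y) ?_ (Commute.one_left _)
    (fun _ _ _ _ h1 h2 => h1.mul_left h2) (fun _ _ h1 => h1.inv_left) hx
  intro x hx
  refine Subgroup.closure_induction (p := fun y _ => Commute x y) ?_ (Commute.one_right _)
    (fun _ _ _ _ h1 h2 => h1.mul_right h2) (fun _ _ h1 => h1.inv_right) hy
  intro y hy
  rcases hx with (⟨π, hπ, rfl⟩ | ⟨i, hi, g, rfl⟩) | ⟨U, σ, hσ, rfl⟩ <;>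
    rcases hy with (⟨ρ, hρ, rfl⟩ | ⟨j, hj, g', rfl⟩) | ⟨V, τ, hτ, rfl⟩
  · exact (d.short_D π).commute (d.short_D ρ) (by omega)
      (by rw [toP_D, toP_D]; exact (commute_of_fix (hd hπ hρ)).map DP)
  · have e := d.kap_conj π j g'
    rw [hπ j (Finset.disjoint_right.1 h hj)] at e
    exact eq_mul_of_mul_inv_eq e
  · exact (d.short_D π).commute (d.short_tri V τ) (by omega) (by
      rw [toP_D, toP_tri, ← PU_top]; exact PU_commute (commute_of_fix (hd hπ hτ)))
  · have e := d.kap_conj ρ i g
    rw [hρ i (Finset.disjoint_left.1 h hi)] at e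
    exact (eq_mul_of_mul_inv_eq e : Commute (d.D ρ) (d.kap i g)).symm
  · exact d.kap_commute_kap (fun e : i = j => Finset.disjoint_left.1 h hi (e ▸ hj)) g g'
  · refine kap_commute_short (d.short_tri V τ) (by omega) (fun g => ?_) g
    rw [toP_tri]
    exact piP_commute_PU (single_off (hτ i (Finset.disjoint_left.1 h hi)) g) _
  · exact (d.short_tri U σ).commute (d.short_D ρ) (by omega) (by
      rw [toP_D, toP_tri, ← PU_top]; exact PU_commute (commute_of_fix (hd hσ hρ)))
  · refine (kap_commute_short (d.short_tri U σ) (by omega) (fun g => ?_) g').symm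
    rw [toP_tri]
    exact piP_commute_PU (single_off (hσ j (Finset.disjoint_right.1 h hj)) g) _
  · exact (d.short_tri U σ).commute (d.short_tri V τ) (by omega) (by
      rw [toP_tri, toP_tri]; exact PU_commute (commute_of_fix (hd hσ hτ)))

theorem Kc_mono (h : S ⊆ T) : d.Kc S ≤ d.Kc T := by
  refine Subgroup.closure_mono ?_
  rintro x ((⟨π, hπ, rfl⟩ | ⟨i, hi, g, rfl⟩) | ⟨U, σ, hσ, rfl⟩)
  · exact Or.inl (Or.inl ⟨π, fun a ha => hπ a fun h' => ha (h h'), rfl⟩)
  · exact Or.inl (Or.inr ⟨i, h hi, g, rfl⟩)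
  · exact Or.inr ⟨U, σ, fun a ha => hσ a fun h' => ha (h h'), rfl⟩

theorem pi_mem {v : Child → Q} (h : ∀ a, a ∉ S → v a = 1) : d.pi v ∈ d.Kc S := by
  refine Subgroup.pi_mem_of_mulSingle_mem (H := (d.Kc S).comap d.pi) v fun i => ?_
  rw [Subgroup.mem_comap, pi_mulSingle]
  by_cases hi : i ∈ S
  · exact kap_mem hi _
  · rw [h i hi, map_one]; exact one_mem _

/-- Conjugation of the elements of a set of cones sees only the values on it. -/
theorem conj_pi_eq {v w : Child → Q} {x : d.G} (hx : x ∈ d.Kc S) (h : ∀ a ∈ S, v a = w a) :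
    d.pi v * x * (d.pi v)⁻¹ = d.pi w * x * (d.pi w)⁻¹ := by
  have hm : d.pi (w⁻¹ * v) ∈ d.Kc Sᶜ := pi_mem fun a ha => by
    rw [Finset.mem_compl, not_not] at ha
    simp [h a ha]
  have c := (K_comm disjoint_compl_right hx hm).eq
  rw [show d.pi v = d.pi w * d.pi (w⁻¹ * v) by rw [← map_mul, mul_inv_cancel_left]]
  calc _ = d.pi w * (d.pi (w⁻¹ * v) * x) * (d.pi (w⁻¹ * v))⁻¹ * (d.pi w)⁻¹ := by group
    _ = _ := by rw [← c]; group

/-- A set of numbers as a set of cones. -/
noncomputable def cones (U : Finset (Fin 64)) : Finset Child := U.map num.symm.toEmbedding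

theorem fixesOff_cp {σ : Perm (Fin 64)} {U : Finset (Fin 64)} (h : σ.support ⊆ U) :
    FixesOff (cones U) (cp σ) := by
  intro a ha
  have hn : num a ∉ σ.support := fun hm => ha (Finset.mem_map.2
    ⟨num a, h hm, by simp⟩)
  rw [cp_apply, Perm.notMem_support.1 hn, num.symm_apply_apply]

variable (d) in
/-- The context of the slots. -/
noncomputable def ctx : Ctx d.G 64 where
  le := by omega
  d := d.D.comp cp
  K U := d.Kc (cones U)
  disj U V h x hx y hy := K_comm (by simpa [cones] using h) hx hy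
  d_mem σ U h _ := D_mem (fixesOff_cp h)

theorem ctx_d (π : Perm (Fin 64)) : (d.ctx).d π = d.D (cp π) := rfl

variable (d) in
/-- The component of a clopen of the base. -/
noncomputable def baseComp (U : {U // U ∈ d.P.base}) : Comp d.ctx where
  fn σ := d.tri U σ
  conj σ τ := (((d.short_tri U σ).mul (d.short_tri U τ)).mul (d.short_tri U σ).inv).eq
    (d.short_tri U _) (by omega) (by
      simp only [map_mul, map_inv, toP_tri, P196.Fp.act_val])
  equiv π σ := (((d.short_D _).mul (d.short_tri U σ)).mul (d.short_D _).inv).eq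
    (d.short_tri U _) (by omega) (by
      rw [map_mul, map_mul, map_inv, toP_D, toP_tri, toP_tri, DP_conj_PU, P196.Fp.act_val]
      simp only [map_mul, map_inv])
  inv σ := (d.short_tri U _).eq (d.short_tri U σ).inv (by omega) (by
    simp only [map_inv, toP_tri, P196.Fp.triInv_val])
  cube σ := by
    rw [show d.tri U σ ^ 3 = d.tri U σ * d.tri U σ * d.tri U σ by rw [pow_succ, pow_two]]
    refine (((d.short_tri U σ).mul (d.short_tri U σ)).mul (d.short_tri U σ)).eq (short_one 0)
      (by omega) ?_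
    have h : σ.1 ^ 3 = 1 := by rw [← σ.2.orderOf]; exact pow_orderOf_eq_one σ.1
    rw [pow_succ, pow_two] at h
    simp only [map_mul, map_one, toP_tri]
    rw [← map_mul, ← map_mul, ← map_mul, ← map_mul, h, map_one, map_one]
  mem σ U' h _ := tri_mem (fixesOff_cp h)

variable (d)

/-- Conjugation of a component by an element of `Q` on every cone. -/
noncomputable def moveComp (g : Q) (e : Comp d.ctx) : Comp d.ctx where
  fn σ := d.pi (fun _ => g) * e.fn σ * (d.pi fun _ => g)⁻¹
  conj σ τ := by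
    rw [← e.conj σ τ]; group
  equiv π σ := by
    have hc : d.D (cp π) * d.pi (fun _ => g) = d.pi (fun _ => g) * d.D (cp π) := by
      have := d.pi_conj (cp π) fun _ => g
      exact eq_mul_of_mul_inv_eq this
    rw [← e.equiv π σ, ctx_d]
    calc _ = d.D (cp π) * d.pi (fun _ => g) * e.fn σ *
          (d.D (cp π) * d.pi fun _ => g)⁻¹ := by group
      _ = _ := by rw [hc]; group
  inv σ := by rw [e.inv, conj_inv]
  cube σ := by rw [conj_pow, e.cube, mul_one, mul_inv_cancel]
  mem σ U h h9 := by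
    classical
    have hx : e.fn σ ∈ d.Kc (cones U) := e.mem σ U h h9
    show d.pi (fun _ => g) * e.fn σ * (d.pi fun _ => g)⁻¹ ∈ d.Kc (cones U)
    rw [conj_pi_eq hx (w := fun a => if a ∈ cones U then g else 1) fun a ha => by rw [if_pos ha]]
    have hp : d.pi (fun a => if a ∈ cones U then g else 1) ∈ d.Kc (cones U) :=
      pi_mem fun a ha => if_neg ha
    exact mul_mem (mul_mem hp hx) (inv_mem hp)

@[simp] theorem moveComp_fn (g : Q) (e : Comp d.ctx) (σ : Tri 64) :
    (d.moveComp g e).fn σ = d.pi (fun _ => g) * e.fn σ * (d.pi fun _ => g)⁻¹ := rfl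

end Data

end Vale.Agent.P193.Bh.Slots
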