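import Vale.Agent.P193.Bh.Slots.Sign

/-!
# P193: slots, the exchanges of pairs of cones
-/

namespace Vale.Agent.P193.Bh.Slots

open TopologicalSpace Equiv
open Vale.Agent.P193.Fp
open Vale.Agent.P196.Fp (Comp W)

variable {Y Q : Type} [TopologicalSpace Y] [Group Q] [MulAction Q Y] [ContinuousConstSMul Q Y]
  (d : Data Y Q)

theorem nodup_num {a b c f : Child} :
    [num a, num b, num c, num f].Nodup ↔ [a, b, c, f].Nodup :=
  List.nodup_map_iff (l := [a, b, c, f]) num.injective

theorem card_quad (a b c f : Child) : ({a, b, c, f} : Finset Child).card ≤ 4 :=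
  Finset.card_le_four

/-- There are cones avoiding a small set. -/
theorem exists_fresh_list : ∀ (n : ℕ) (T : Finset Child), T.card + n ≤ 64 →
    ∃ l : List Child, l.length = n ∧ l.Nodup ∧ ∀ x ∈ l, x ∉ T
  | 0, _, _ => ⟨[], rfl, List.nodup_nil, by simp⟩
  | n + 1, T, h => by
    classical
    obtain ⟨l, hl, hn, hd⟩ := exists_fresh_list n T (by omega)
    obtain ⟨x, -, hx⟩ := Finset.exists_mem_notMem_of_card_lt_card (s := T ∪ l.toFinset)
      (t := (Finset.univ : Finset Child)) (by
        have := Finset.card_union_le T l.toFinset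
        have := List.toFinset_card_le l
        rw [Finset.card_univ, card_child]; omega)
    simp only [Finset.mem_union, List.mem_toFinset, not_or] at hx
    exact ⟨x :: l, by simp [hl], List.nodup_cons.2 ⟨hx.2, hn⟩,
      fun y hy => (List.mem_cons.1 hy).elim (fun e => e ▸ hx.1) (hd y)⟩

namespace Data

/-- The pair of exchanges over `U` without translation. -/
noncomputable def W0 (U : Clopens Y) (a b c f : Child) : d.G :=
  W (d.comp U) (num a) (num b) (num c) (num f)

/-- The translation on two cones. -/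
def twist (g : Q) (b f : Child) : Child → Q := fun x => if x = b ∨ x = f then g else 1

/-- The exchanges `a → b`, `c → f` by `g` over `U`. -/
noncomputable def el2 (U : Clopens Y) (g : Q) (a b c f : Child) : d.G :=
  d.pi (twist g b f) * d.W0 U a b c f * (d.pi (twist g b f))⁻¹

theorem cp_permCongr (π : Perm Child) : cp (num.permCongr π) = π := by
  ext x
  simp

theorem cp_swap (a b : Child) : cp (swap (num a) (num b)) = swap a b := by
  refine Equiv.ext fun x => ?_
  rw [cp_apply, Equiv.symm_apply_eq]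
  simp [swap_apply_def, apply_ite num]

theorem W0_equiv (π : Perm Child) (U : Clopens Y) (a b c f : Child) :
    d.D π * d.W0 U a b c f * (d.D π)⁻¹ = d.W0 U (π a) (π b) (π c) (π f) := by
  have h := P196.Fp.W_equiv (C := d.ctx) (d.comp U) (num.permCongr π) (a := num a) (b := num b)
    (c := num c) (d := num f)
  rw [ctx_d, cp_permCongr] at h
  rw [W0, h]
  simp [W0]

theorem W0_mem_nine {U : Clopens Y} {a b c f : Child} {S : Finset Child} (ha : a ∈ S) (hb : b ∈ S)
    (hc : c ∈ S) (hf : f ∈ S) (h9 : 9 ≤ S.card) : d.W0 U a b c f ∈ d.Kc S := by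
  have e : cones (S.map num.toEmbedding) = S := by
    ext x; rw [mem_cones]; simp
  have h := P196.Fp.W_mem_K (C := d.ctx) (d.comp U) (a := num a) (b := num b) (c := num c)
    (d := num f) (U := S.map num.toEmbedding) (by simp [Finset.insert_subset_iff, *])
    (by rwa [Finset.card_map])
  show d.W0 U a b c f ∈ _
  change d.W0 U a b c f ∈ d.Kc (cones (S.map num.toEmbedding)) at h
  rwa [e] at h

theorem W0_commute_kap {U : Clopens Y} {a b c f i : Child}
    (h : i ≠ a ∧ i ≠ b ∧ i ≠ c ∧ i ≠ f) (g : Q) : Commute (d.W0 U a b c f) (d.kap i g) := by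
  refine K_comm (S := {i}ᶜ) (T := {i}) disjoint_compl_left ?_
    (kap_mem (Finset.mem_singleton_self i) g)
  exact d.W0_mem_nine (by simp [h.1.symm]) (by simp [h.2.1.symm]) (by simp [h.2.2.1.symm])
    (by simp [h.2.2.2.symm]) (by rw [Finset.card_compl, Finset.card_singleton, card_child]; omega)

/-- Conjugation sees only the values at the four cones. -/
theorem W0_conj_congr {U : Clopens Y} {a b c f : Child} {v w : Child → Q} (ha : v a = w a)
    (hb : v b = w b) (hc : v c = w c) (hf : v f = w f) :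
    d.pi v * d.W0 U a b c f * (d.pi v)⁻¹ = d.pi w * d.W0 U a b c f * (d.pi w)⁻¹ := by
  have hk : Commute (d.W0 U a b c f) (d.pi (w⁻¹ * v)) := d.commute_pi fun i => by
    by_cases h : i = a ∨ i = b ∨ i = c ∨ i = f
    · have e : (w⁻¹ * v) i = 1 := by
        rcases h with rfl | rfl | rfl | rfl <;> simp [ha, hb, hc, hf]
      rw [e, map_one]; exact Commute.one_right _
    · simp only [not_or] at h
      exact d.W0_commute_kap h _
  rw [show d.pi v = d.pi w * d.pi (w⁻¹ * v) by rw [← map_mul, mul_inv_cancel_left]]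
  calc _ = d.pi w * (d.pi (w⁻¹ * v) * d.W0 U a b c f) * (d.pi (w⁻¹ * v))⁻¹ * (d.pi w)⁻¹ := by group
    _ = _ := by rw [← hk.eq]; group

/-- Any tuple with the same values computes the exchange. -/
theorem el2_eq {U : Clopens Y} {g : Q} {a b c f : Child} (h : [a, b, c, f].Nodup) (v : Child → Q)
    (ha : v a = 1) (hb : v b = g) (hc : v c = 1) (hf : v f = g) :
    d.el2 U g a b c f = d.pi v * d.W0 U a b c f * (d.pi v)⁻¹ := by
  simp only [List.nodup_cons, List.mem_cons, List.not_mem_nil, or_false, not_or] at h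
  obtain ⟨⟨ab, ac, af⟩, ⟨bc, -⟩, ⟨cf, -⟩⟩ := h
  exact d.W0_conj_congr (by simp [twist, ab, af, ha]) (by simp [twist, hb])
    (by simp [twist, Ne.symm bc, cf, hc]) (by simp [twist, hf])

theorem el2_one_g (U : Clopens Y) (a b c f : Child) : d.el2 U 1 a b c f = d.W0 U a b c f := by
  rw [el2, show twist (1 : Q) b f = 1 from funext fun x => by simp [twist], map_one]
  group

theorem W0_smul (g : Q) (U : Clopens Y) (a b c f : Child) :
    d.W0 (smulC g U) a b c f = d.pi (fun _ => g) * d.W0 U a b c f * (d.pi fun _ => g)⁻¹ := by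
  rw [W0, d.comp_smul, W_move]; rfl

theorem twist_comp (π : Perm Child) (g : Q) (b f : Child) :
    twist g b f ∘ ⇑π⁻¹ = twist g (π b) (π f) := by
  funext x
  simp [twist, Perm.inv_def, Equiv.symm_apply_eq]

theorem el2_equiv (π : Perm Child) (U : Clopens Y) (g : Q) (a b c f : Child) :
    d.D π * d.el2 U g a b c f * (d.D π)⁻¹ = d.el2 U g (π a) (π b) (π c) (π f) := by
  rw [el2, el2, ← twist_comp π, ← d.pi_conj, ← d.W0_equiv]
  group

theorem toP_W0 (U : Clopens Y) {a b c f : Child} (h : [a, b, c, f].Nodup) :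
    d.toP (d.W0 U a b c f) = PU U (swap a b * swap c f) := by
  have h' := nodup_num.2 h
  have hh := h'
  simp only [List.nodup_cons, List.mem_cons, List.not_mem_nil, or_false, not_or] at hh
  obtain ⟨⟨ab, ac, af⟩, ⟨bc, -⟩, ⟨cf, -⟩⟩ := hh
  rw [W0, P196.Fp.W_eq _ h' ⟨ac, Ne.symm bc, ab⟩ ⟨ac, cf, af⟩, map_mul, toP_comp, toP_comp,
    ← map_mul, ← map_mul, P196.Fp.cyc_mul_cyc h', map_mul, cp_swap, cp_swap]

end Data

end Vale.Agent.P193.Bh.Slots
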