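import Vale.Agent.P193.Bh.Slots.Context

/-!
# P193: slots, the components of all clopens
-/

namespace Vale.Agent.P193.Bh.Slots

open TopologicalSpace Equiv
open Vale.Agent.P193.Fp
open Vale.Agent.P196.Fp (Tri act Comp Le Orth diff componentAlgebra Five)
open scoped commutatorElement

variable {Y Q : Type} [TopologicalSpace Y]

theorem PU_conj_of_le {U W : Clopens Y} (h : W ≤ U) (π ρ : Perm Child) :
    PU U π * PU W ρ * (PU U π)⁻¹ = PU W (π * ρ * π⁻¹) := by
  refine mul_inv_eq_of_eq_mul (Equiv.ext fun ⟨y, a⟩ => ?_)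
  by_cases hw : y ∈ W
  · simp only [Perm.mul_apply, PU_of_mem _ hw, PU_of_mem _ (h hw)]
    simp
  · by_cases hu : y ∈ U <;>
      simp only [Perm.mul_apply, PU_of_not _ hw, PU_of_mem, PU_of_not, hu, not_false_eq_true]

theorem PU_sdiff {U W : Clopens Y} (h : W ≤ U) (π : Perm Child) :
    PU U π * (PU W π)⁻¹ = PU (U \ W) π := by
  refine mul_inv_eq_of_eq_mul ?_
  rw [← PU_sup disjoint_sdiff_self_left, sdiff_sup_cancel h]

theorem PU_commutator (U V : Clopens Y) (π ρ : Perm Child) :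
    ⁅PU U π, PU V ρ⁆ = PU (U ⊓ V) ⁅π, ρ⁆ := by
  rw [commutatorElement_def, commutatorElement_def, ← map_inv, ← map_inv]
  refine Equiv.ext fun ⟨y, a⟩ => ?_
  by_cases hu : y ∈ U <;> by_cases hv : y ∈ V
  · have h : y ∈ U ⊓ V := ⟨hu, hv⟩
    simp only [Perm.mul_apply, PU_of_mem _ hu, PU_of_mem _ hv, PU_of_mem _ h]
  all_goals
    have h : y ∉ (U ⊓ V : Clopens Y) := fun h => by
      first
        | exact hv h.2
        | exact hu h.1
    simp only [Perm.mul_apply, PU_of_mem, PU_of_not, hu, hv, h, not_false_eq_true]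
    try simp

variable [Group Q] [MulAction Q Y] [ContinuousConstSMul Q Y]

namespace Data

variable (d : Data Y Q)

/-- Elements of `Q` as permutations of the components. -/
noncomputable def moveHom : Q →* Perm (Comp d.ctx) where
  toFun g :=
    { toFun := d.moveComp g
      invFun := d.moveComp g⁻¹
      left_inv := fun e => Comp.ext fun σ => by
        show d.pi (fun _ => g⁻¹) * (d.pi (fun _ => g) * e.fn σ * (d.pi fun _ => g)⁻¹) *
          (d.pi fun _ => g⁻¹)⁻¹ = e.fn σ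
        rw [show (fun _ : Child => g⁻¹) = (fun _ => g)⁻¹ from rfl, map_inv]
        group
      right_inv := fun e => Comp.ext fun σ => by
        show d.pi (fun _ => g) * (d.pi (fun _ => g⁻¹) * e.fn σ * (d.pi fun _ => g⁻¹)⁻¹) *
          (d.pi fun _ => g)⁻¹ = e.fn σ
        rw [show (fun _ : Child => g⁻¹) = (fun _ => g)⁻¹ from rfl, map_inv]
        group }
  map_one' := Equiv.ext fun e => Comp.ext fun σ => by
    show d.pi (fun _ => (1 : Q)) * e.fn σ * (d.pi fun _ => (1 : Q))⁻¹ = e.fn σ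
    rw [show (fun _ : Child => (1 : Q)) = 1 from rfl, map_one]; group
  map_mul' g h := Equiv.ext fun e => Comp.ext fun σ => by
    show d.pi (fun _ => g * h) * e.fn σ * (d.pi fun _ => g * h)⁻¹ = _
    rw [show (fun _ : Child => g * h) = (fun _ => g) * (fun _ => h) from rfl, map_mul]
    show _ = d.pi (fun _ => g) * (d.pi (fun _ => h) * e.fn σ * (d.pi fun _ => h)⁻¹) *
      (d.pi fun _ => g)⁻¹
    group

theorem const_commute_D (g : Q) (π : Perm Child) :
    Commute (d.pi fun _ => g) (d.D π) := by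
  have h := d.pi_conj π fun _ => g
  exact (eq_mul_of_mul_inv_eq h : Commute (d.D π) (d.pi fun _ => g)).symm

theorem move_le {g : Q} {m a : Comp d.ctx} (h : Le m a) :
    Le (d.moveComp g m) (d.moveComp g a) := by
  intro κ ρ
  simp only [moveComp_fn]
  rw [← h κ ρ]; group

theorem move_diff {g : Q} {m a : Comp d.ctx} (h : Le m a) :
    d.moveComp g (diff a m h) = diff (d.moveComp g a) (d.moveComp g m) (d.move_le h) := by
  refine Comp.ext fun σ => ?_
  simp only [moveComp_fn, diff]; group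

theorem move_orth {g : Q} {e f : Comp d.ctx} (h : Orth e f) :
    Orth (d.moveComp g e) (d.moveComp g f) := fun σ τ => by
  simp only [moveComp_fn]
  exact (h σ τ).conj (d.pi fun _ => g)

theorem moveHom_action : IsEventAction (componentAlgebra d.ctx) d.moveHom where
  com g a b := fun ⟨c, h1, h2, o⟩ => by
    show P196.Fp.Com (d.moveComp g a) (d.moveComp g b)
    refine ⟨d.moveComp g c, d.move_le h1, d.move_le h2, ?_⟩
    rw [← d.move_diff h1, ← d.move_diff h2]; exact d.move_orth o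
  map_top g := Comp.ext fun σ => by
    show d.pi (fun _ => g) * d.D (cp σ.1) * (d.pi fun _ => g)⁻¹ = d.D (cp σ.1)
    rw [(d.const_commute_D g _).eq, mul_inv_cancel_right]
  map_compl g a := Comp.ext fun σ => by
    show d.pi (fun _ => g) * (d.D (cp σ.1) * (a.fn σ)⁻¹) * (d.pi fun _ => g)⁻¹ =
      d.D (cp σ.1) * (d.pi (fun _ => g) * a.fn σ * (d.pi fun _ => g)⁻¹)⁻¹
    rw [← mul_assoc, (d.const_commute_D g _).eq]; group
  map_inf g a b := fun ⟨c, h1, h2, o⟩ => by
    show d.moveComp g (P196.Fp.inf a b) = P196.Fp.inf (d.moveComp g a) (d.moveComp g b)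
    rw [P196.Fp.inf_eq h1 h2 o, P196.Fp.inf_eq (d.move_le h1) (d.move_le h2)]
    rw [← d.move_diff h1, ← d.move_diff h2]; exact d.move_orth o

open Classical in
/-- The assignment on the base. -/
noncomputable def baseMap (U : Clopens Y) : Comp d.ctx :=
  if h : U ∈ d.P.base then d.baseComp ⟨U, h⟩ else P196.Fp.bot d.ctx

theorem baseMap_fn {U : Clopens Y} (h : U ∈ d.P.base) (σ : Tri 64) :
    (d.baseMap U).fn σ = d.tri ⟨U, h⟩ σ := by
  rw [baseMap, dif_pos h]; rfl

theorem base_le {U W : Clopens Y} (hU : U ∈ d.P.base) (hW : W ∈ d.P.base) (h : W ≤ U) :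
    Le (d.baseMap W) (d.baseMap U) := by
  intro κ ρ
  rw [baseMap_fn _ hU, baseMap_fn _ hW, baseMap_fn _ hW]
  refine (((d.short_tri _ κ).mul (d.short_tri _ ρ)).mul (d.short_tri _ κ).inv).eq
    (d.short_tri _ _) (by omega) ?_
  rw [map_mul, map_mul, map_inv, toP_tri, toP_tri, toP_tri, PU_conj_of_le h, P196.Fp.act_val]
  simp only [map_mul, map_inv]

theorem base_hom : IsEventHomOn (componentAlgebra d.ctx) (d.P.base : Set (Clopens Y)) d.baseMap := by
  have witness : ∀ U ∈ d.P.base, ∀ V ∈ d.P.base,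
      ∃ h1 : Le (d.baseMap (U ⊓ V)) (d.baseMap U), ∃ h2 : Le (d.baseMap (U ⊓ V)) (d.baseMap V),
        Orth (diff (d.baseMap U) (d.baseMap (U ⊓ V)) h1)
          (diff (d.baseMap V) (d.baseMap (U ⊓ V)) h2) := by
    intro U hU V hV
    have hI := d.P.inf_mem U hU V hV
    refine ⟨d.base_le hU hI inf_le_left, d.base_le hV hI inf_le_right, fun σ τ => ?_⟩
    show Commute ((d.baseMap U).fn σ * ((d.baseMap (U ⊓ V)).fn σ)⁻¹)
      ((d.baseMap V).fn τ * ((d.baseMap (U ⊓ V)).fn τ)⁻¹)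
    rw [baseMap_fn _ hU, baseMap_fn _ hV, baseMap_fn _ hI, baseMap_fn _ hI]
    refine ((d.short_tri _ σ).mul (d.short_tri _ σ).inv).commute
      ((d.short_tri _ τ).mul (d.short_tri _ τ).inv) (by omega) ?_
    simp only [map_mul, map_inv, toP_tri]
    rw [PU_sdiff inf_le_left, PU_sdiff inf_le_right]
    exact PU_commute_of_disjoint
      (disjoint_clopens.2 fun y (h1 : y ∈ (U : Set Y) \ ((U : Set Y) ∩ V))
        (h2 : y ∈ (V : Set Y) \ ((U : Set Y) ∩ V)) => h1.2 ⟨h1.1, h2.1⟩) _ _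
  refine ⟨fun U hU V hV => ?_, Comp.ext fun σ => ?_, fun U hU => Comp.ext fun σ => ?_,
    fun U hU V hV => ?_⟩
  · obtain ⟨h1, h2, o⟩ := witness U hU V hV
    exact ⟨_, h1, h2, o⟩
  · rw [baseMap_fn _ d.P.top_mem]
    show d.tri _ σ = d.D (cp σ.1)
    exact (d.short_tri _ σ).eq (d.short_D _) (by omega) (by rw [toP_tri, toP_D, PU_top])
  · rw [baseMap_fn _ (d.P.compl_mem U hU)]
    show d.tri _ σ = d.D (cp σ.1) * ((d.baseMap U).fn σ)⁻¹
    rw [baseMap_fn _ hU]
    refine (d.short_tri _ σ).eq ((d.short_D _).mul (d.short_tri _ σ).inv) (by omega) ?_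
    rw [map_mul, map_inv, toP_tri, toP_tri, toP_D, ← PU_top, PU_sdiff le_top, top_sdiff]
  · obtain ⟨h1, h2, o⟩ := witness U hU V hV
    exact (P196.Fp.inf_eq h1 h2 o).symm

theorem base_rel : ∀ x ∈ d.P.rel, d.moveHom x.1 (d.baseMap x.2.1) = d.baseMap x.2.2 := by
  intro x hx
  obtain ⟨hU, hV, e⟩ := d.P.rel_true x hx
  refine Comp.ext fun σ => ?_
  show d.pi (fun _ => x.1) * (d.baseMap x.2.1).fn σ * (d.pi fun _ => x.1)⁻¹ = _
  rw [baseMap_fn _ hU, baseMap_fn _ hV]
  obtain ⟨p, q, r, hne, rfl⟩ := P196.Fp.exists_cyc σ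
  have hS : d.tri ⟨x.2.1, hU⟩ (P196.Fp.cyc p q r hne) ∈ d.Kc (cones {p, q, r}) :=
    tri_mem (fixesOff_cp (by rw [P196.Fp.cyc_support]))
  let w : Child → Q := Pi.mulSingle (num.symm p) x.1 * Pi.mulSingle (num.symm q) x.1 *
    Pi.mulSingle (num.symm r) x.1
  have hw : ∀ a ∈ cones ({p, q, r} : Finset (Fin 64)), (fun _ : Child => x.1) a = w a := by
    intro a ha
    obtain ⟨h1, h2, h3⟩ := hne
    simp only [cones, Finset.map_insert, Finset.map_singleton, Finset.mem_insert,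
      Finset.mem_singleton, Equiv.coe_toEmbedding] at ha
    rcases ha with rfl | rfl | rfl <;>
      simp [w, h1, h2, h3, Ne.symm h1, Ne.symm h2, Ne.symm h3]
  rw [conj_pi_eq hS hw]
  have hs : d.Short 3 (d.pi w) := by
    simp only [w, map_mul, pi_mulSingle]
    exact ((d.short_kap_rel _ hx).mul (d.short_kap_rel _ hx)).mul (d.short_kap_rel _ hx)
  refine ((hs.mul (d.short_tri _ _)).mul hs.inv).eq (d.short_tri _ _) (by omega) ?_
  rw [← conj_pi_eq hS hw, map_mul, map_mul, map_inv, toP_pi, toP_tri, toP_tri, piP_conj_PU, e]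

/-- The components of all clopens. -/
theorem exists_comp : ∃ F : Clopens Y → Comp d.ctx,
    IsEventHomOn (componentAlgebra d.ctx) Set.univ F ∧
      (∀ g U, F (smulC g U) = d.moveComp g (F U)) ∧ ∀ U ∈ d.P.base, F U = d.baseMap U :=
  d.P.extend (componentAlgebra d.ctx) d.moveHom d.baseMap d.moveHom_action d.base_hom d.base_rel

/-- The component of a clopen. -/
noncomputable def comp : Clopens Y → Comp d.ctx := d.exists_comp.choose

theorem comp_hom : IsEventHomOn (componentAlgebra d.ctx) Set.univ d.comp :=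
  d.exists_comp.choose_spec.1

theorem comp_smul (g : Q) (U : Clopens Y) : d.comp (smulC g U) = d.moveComp g (d.comp U) :=
  d.exists_comp.choose_spec.2.1 g U

theorem comp_base {U : Clopens Y} (h : U ∈ d.P.base) : d.comp U = d.baseComp ⟨U, h⟩ := by
  have e : d.comp U = d.baseMap U := d.exists_comp.choose_spec.2.2 U h
  rw [e, baseMap, dif_pos h]

theorem comp_top : d.comp ⊤ = P196.Fp.top d.ctx := d.comp_hom.map_top

theorem comp_diff {U W : Clopens Y} (h : U ≤ W) :
    ∃ hl : Le (d.comp U) (d.comp W), diff (d.comp W) (d.comp U) hl = d.comp (W ⊓ Uᶜ) := by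
  have hc : P196.Fp.Com (d.comp W) (d.comp U) := d.comp_hom.com W trivial U trivial
  obtain ⟨g, h1, h2, o⟩ := hc
  have eg : g = d.comp U := by
    have := d.comp_hom.map_inf W trivial U trivial
    rw [inf_eq_right.2 h] at this
    exact (P196.Fp.inf_eq h1 h2 o).symm.trans this.symm
  obtain ⟨k, o'⟩ := P196.Fp.compl_witness h1 h2 o
  have ed : d.comp (W ⊓ Uᶜ) = diff (d.comp W) g h1 := by
    rw [d.comp_hom.map_inf W trivial Uᶜ trivial, d.comp_hom.map_compl U trivial]
    exact P196.Fp.inf_eq (P196.Fp.diff_le h1) k o'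
  subst eg
  exact ⟨h1, ed.symm⟩

theorem comp_sup {U V : Clopens Y} (h : Disjoint U V) :
    Orth (d.comp U) (d.comp V) ∧
      ∀ σ, (d.comp (U ⊔ V)).fn σ = (d.comp U).fn σ * (d.comp V).fn σ := by
  obtain ⟨hl, e⟩ := d.comp_diff (le_sup_left : U ≤ U ⊔ V)
  have hv : (U ⊔ V) ⊓ Uᶜ = V := by
    rw [inf_sup_right, inf_compl_eq_bot, bot_sup_eq, inf_eq_left, le_compl_iff_disjoint_left]
    exact h
  rw [hv] at e
  have o := P196.Fp.orth_diff hl
  rw [e] at o
  refine ⟨o, fun σ => ?_⟩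
  rw [← e]
  show _ = (d.comp U).fn σ * ((d.comp (U ⊔ V)).fn σ * ((d.comp U).fn σ)⁻¹)
  rw [← mul_assoc, ← (hl.fn_commute σ).eq, mul_inv_cancel_right]

theorem toP_comp (U : Clopens Y) (σ : Tri 64) : d.toP ((d.comp U).fn σ) = PU U (cp σ.1) := by
  refine d.P.generated {U | ∀ σ, d.toP ((d.comp U).fn σ) = PU U (cp σ.1)} ?_ ?_ ?_ ?_ U σ
  · intro U hU σ
    rw [d.comp_base hU]
    exact d.toP_tri ⟨U, hU⟩ σ
  · intro U hU σ
    rw [d.comp_hom.map_compl U trivial]
    show d.toP (d.D (cp σ.1) * ((d.comp U).fn σ)⁻¹) = _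
    rw [map_mul, map_inv, hU σ, toP_D, ← PU_top, PU_sdiff le_top, top_sdiff]
  · intro U hU V hV σ
    obtain ⟨g, h1, h2, o⟩ := (d.comp_hom.com U trivial V trivial : P196.Fp.Com _ _)
    have e : d.comp (U ⊓ V) = g :=
      (d.comp_hom.map_inf U trivial V trivial).trans (P196.Fp.inf_eq h1 h2 o)
    obtain ⟨p, a, c, hne, rfl⟩ := P196.Fp.exists_cyc σ
    obtain ⟨q, rfl, rfl, rfl, -⟩ := P196.Fp.exists_five p a c hne ∅ (by simp)
    show d.toP ((d.comp (U ⊓ V)).fn q.rho) = _
    rw [e, P196.Fp.meet_formula h1 h2 o q, map_pow, map_commutatorElement, hU, hV, PU_commutator,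
      ← map_pow, ← map_commutatorElement, q.commutator, ← map_pow]
    have h3 : q.rho.1 ^ 3 = 1 := by rw [← q.rho.2.orderOf]; exact pow_orderOf_eq_one q.rho.1
    rw [pow_succ, h3, one_mul]
    rfl
  · intro g U hU σ
    rw [d.comp_smul, moveComp_fn, map_mul, map_mul, map_inv, toP_pi, hU σ, piP_conj_PU]

end Data

end Vale.Agent.P193.Bh.Slots
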