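import Vale.Agent.P193.Bh.Slots.Perm
import Vale.Agent.P196.Fp.Cycles

/-!
# P193: slots, the presented group

Letters: permutations of the cones, generators of `Q` on one cone, three-cycles of cones over the
clopens of the base. Relations: the true products of at most thirty atoms, and the relators of `Q`
on each cone.
-/

namespace Vale.Agent.P193.Bh.Slots

open TopologicalSpace Equiv
open Vale.Agent.P193.Fp
open Vale.Agent.P196.Fp (Tri act)

theorem card_child : Fintype.card Child = 64 := by simp [Child]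

/-- The numbering of the cones. -/
noncomputable def num : Child ≃ Fin 64 := Fintype.equivFinOfCardEq card_child

/-- Permutations of numbers as permutations of cones. -/
noncomputable def cp : Perm (Fin 64) →* Perm Child := num.symm.permCongrHom.toMonoidHom

@[simp] theorem cp_apply (π : Perm (Fin 64)) (a : Child) : cp π a = num.symm (π (num a)) := rfl

/-- The events and a finite presentation of the group. -/
structure Data (Y Q : Type) [TopologicalSpace Y] [Group Q] [MulAction Q Y]
    [ContinuousConstSMul Q Y] where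
  P : EventPres Y Q
  n : ℕ
  φ : FreeGroup (Fin n) →* Q
  surj : Function.Surjective φ
  R : Set (FreeGroup (Fin n))
  finite_R : R.Finite
  ker_eq : Subgroup.normalClosure R = φ.ker

theorem exists_data {Y Q : Type} [TopologicalSpace Y] [Group Q] [MulAction Q Y]
    [ContinuousConstSMul Q Y] (P : EventPres Y Q) (h : Group.IsFinitelyPresented Q) :
    Nonempty (Data Y Q) := by
  obtain ⟨n, φ, hs, R, hR, e⟩ := h.out
  exact ⟨⟨P, n, φ, hs, R, hR, e⟩⟩

variable {Y Q : Type} [TopologicalSpace Y] [Group Q] [MulAction Q Y] [ContinuousConstSMul Q Y]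
  (d : Data Y Q)

namespace Data

/-- The letters. -/
abbrev Letter : Type := Perm Child ⊕ (Child × Fin d.n) ⊕ ({U // U ∈ d.P.base} × Tri 64)

/-- The permutation named by a letter. -/
noncomputable def val : d.Letter → Perm (Y × Child)
  | .inl π => DP π
  | .inr (.inl (i, x)) => piP (Pi.mulSingle i (d.φ (FreeGroup.of x)))
  | .inr (.inr (U, σ)) => PU U.1 (cp σ.1)

/-- A word of `Q` on one cone. -/
def kapW (i : Child) : FreeGroup (Fin d.n) →* FreeGroup d.Letter :=
  FreeGroup.lift fun x => FreeGroup.of (.inr (.inl (i, x)))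

/-- A word of an element of `Q`. -/
noncomputable def pick (g : Q) : FreeGroup (Fin d.n) := (d.surj g).choose

theorem φ_pick (g : Q) : d.φ (d.pick g) = g := (d.surj g).choose_spec

/-- The atoms. -/
def atoms : Set (FreeGroup d.Letter) :=
  let A := Set.range FreeGroup.of ∪
    (fun p : Child × (Q × Clopens Y × Clopens Y) => d.kapW p.1 (d.pick p.2.1)) ''
      (Set.univ ×ˢ (d.P.rel : Set (Q × Clopens Y × Clopens Y)))
  A ∪ (·⁻¹) '' A

theorem finite_atoms : d.atoms.Finite := by
  have h := (Set.finite_range (FreeGroup.of : d.Letter → _)).union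
    ((Set.finite_univ.prod d.P.rel.finite_toSet).image
      fun p : Child × (Q × Clopens Y × Clopens Y) => d.kapW p.1 (d.pick p.2.1))
  exact h.union (h.image _)

theorem inv_mem_atoms {a : FreeGroup d.Letter} (h : a ∈ d.atoms) : a⁻¹ ∈ d.atoms := by
  rcases h with h | ⟨b, hb, rfl⟩
  · exact Or.inr ⟨a, h, rfl⟩
  · exact Or.inl (by simpa using hb)

/-- The relations. -/
def rels : Set (FreeGroup d.Letter) :=
  {x | x ∈ (fun l : List d.atoms => (l.map Subtype.val).prod) '' {l | l.length ≤ 30} ∧
      FreeGroup.lift d.val x = 1} ∪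
    (fun p : Child × FreeGroup (Fin d.n) => d.kapW p.1 p.2) '' (Set.univ ×ˢ d.R)

theorem finite_rels : d.rels.Finite := by
  have : Finite d.atoms := d.finite_atoms.to_subtype
  exact (((List.finite_length_le d.atoms 30).image _).subset fun _ h => h.1).union
    ((Set.finite_univ.prod d.finite_R).image _)

/-- The presented group. -/
abbrev G : Type := PresentedGroup d.rels

theorem fp_G : Group.IsFinitelyPresented d.G :=
  have : Finite d.rels := d.finite_rels.to_subtype
  inferInstance

theorem val_kapW (i : Child) (w : FreeGroup (Fin d.n)) :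
    FreeGroup.lift d.val (d.kapW i w) = piP (Pi.mulSingle i (d.φ w)) := by
  have : (FreeGroup.lift d.val).comp (d.kapW i) =
      (piP.comp ((MonoidHom.mulSingle (fun _ : Child => Q) i).comp d.φ)) :=
    FreeGroup.ext_hom _ _ fun x => by simp [kapW, val]
  exact DFunLike.congr_fun this w

theorem rels_true : ∀ x ∈ d.rels, FreeGroup.lift d.val x = 1 := by
  rintro x (⟨-, h⟩ | ⟨⟨i, w⟩, ⟨-, hw⟩, rfl⟩)
  · exact h
  · have e : d.φ w = 1 := by
      have := Subgroup.subset_normalClosure hw
      rwa [d.ker_eq] at this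
    show FreeGroup.lift d.val (d.kapW i w) = 1
    rw [d.val_kapW, e, Pi.mulSingle_one, map_one]

/-- The action on the space times the cones. -/
noncomputable def toP : d.G →* Perm (Y × Child) := PresentedGroup.toGroup d.rels_true

theorem toP_mk (x : FreeGroup d.Letter) :
    d.toP (PresentedGroup.mk d.rels x) = FreeGroup.lift d.val x := rfl

/-- An element is short. -/
def Short (k : ℕ) (x : d.G) : Prop :=
  ∃ l : List d.atoms, l.length ≤ k ∧ PresentedGroup.mk d.rels (l.map Subtype.val).prod = x

variable {d}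

theorem Short.mul {j k : ℕ} {x y : d.G} (hx : d.Short j x) (hy : d.Short k y) :
    d.Short (j + k) (x * y) := by
  obtain ⟨l, hl, rfl⟩ := hx
  obtain ⟨m, hm, rfl⟩ := hy
  exact ⟨l ++ m, by simp; omega, by simp⟩

theorem Short.inv {k : ℕ} {x : d.G} (hx : d.Short k x) : d.Short k x⁻¹ := by
  obtain ⟨l, hl, rfl⟩ := hx
  refine ⟨(l.map fun a => ⟨a.1⁻¹, d.inv_mem_atoms a.2⟩).reverse, by simpa using hl, ?_⟩
  rw [← map_inv, List.prod_inv_reverse]
  congr 1
  simp [List.map_reverse, Function.comp_def]

theorem Short.mono {j k : ℕ} {x : d.G} (hx : d.Short j x) (h : j ≤ k) : d.Short k x :=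
  let ⟨l, hl, e⟩ := hx; ⟨l, hl.trans h, e⟩

theorem short_one (k : ℕ) : d.Short k (1 : d.G) := ⟨[], Nat.zero_le k, by simp⟩

/-- Short elements are determined by their action. -/
theorem Short.eq {j k : ℕ} {x y : d.G} (hx : d.Short j x) (hy : d.Short k y)
    (h : j + k ≤ 30) (e : d.toP x = d.toP y) : x = y := by
  obtain ⟨l, hl, he⟩ := hx.mul hy.inv
  refine mul_inv_eq_one.1 (he.symm.trans (PresentedGroup.one_of_mem (Or.inl ⟨⟨l, ?_, rfl⟩, ?_⟩)))
  · exact hl.trans h
  · rw [← d.toP_mk, he, map_mul, map_inv, e, mul_inv_cancel]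

theorem Short.commute {j k : ℕ} {x y : d.G} (hx : d.Short j x) (hy : d.Short k y)
    (h : j + k ≤ 15) (e : Commute (d.toP x) (d.toP y)) : Commute x y :=
  (hx.mul hy).eq (hy.mul hx) (by omega) (by rw [map_mul, map_mul]; exact e.eq)

theorem short_atom {a : FreeGroup d.Letter} (h : a ∈ d.atoms) :
    d.Short 1 (PresentedGroup.mk d.rels a) := ⟨[⟨a, h⟩], by simp, by simp⟩

variable (d)

theorem short_of (l : d.Letter) : d.Short 1 (PresentedGroup.of l) :=
  short_atom (Or.inl (Or.inl ⟨l, rfl⟩))

/-- The permutations of the cones. -/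
noncomputable def D : Perm Child →* d.G :=
  MonoidHom.mk' (fun π => PresentedGroup.of (.inl π)) fun π ρ =>
    (d.short_of _).eq ((d.short_of _).mul (d.short_of _)) (by omega)
      (by simp [toP, PresentedGroup.toGroup.of, val])

theorem short_D (π : Perm Child) : d.Short 1 (d.D π) := d.short_of _

@[simp] theorem toP_D (π : Perm Child) : d.toP (d.D π) = DP π := by
  simp [D, toP, PresentedGroup.toGroup.of, val]

/-- The word hom of a cone, through `φ`. -/
noncomputable def kapF (i : Child) : FreeGroup (Fin d.n) →* d.G :=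
  (PresentedGroup.mk d.rels).comp (d.kapW i)

/-- An element of `Q` on one cone. -/
noncomputable def kap (i : Child) : Q →* d.G :=
  d.φ.liftOfSurjective d.surj ⟨d.kapF i, by
    rw [← d.ker_eq]
    refine Subgroup.normalClosure_le_normal fun w hw => ?_
    exact PresentedGroup.one_of_mem (Or.inr ⟨(i, w), ⟨trivial, hw⟩, rfl⟩)⟩

theorem kap_φ (i : Child) (w : FreeGroup (Fin d.n)) :
    d.kap i (d.φ w) = PresentedGroup.mk d.rels (d.kapW i w) :=
  d.φ.liftOfRightInverse_comp_apply _ _ _ w

@[simp] theorem toP_kap (i : Child) (g : Q) : d.toP (d.kap i g) = piP (Pi.mulSingle i g) := by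
  obtain ⟨w, rfl⟩ := d.surj g
  rw [d.kap_φ, d.toP_mk, d.val_kapW]

theorem short_kap_gen (i : Child) (x : Fin d.n) : d.Short 1 (d.kap i (d.φ (FreeGroup.of x))) := by
  rw [d.kap_φ]
  exact d.short_of (.inr (.inl (i, x)))

theorem short_kap_rel (i : Child) {r : Q × Clopens Y × Clopens Y} (hr : r ∈ d.P.rel) :
    d.Short 1 (d.kap i r.1) := by
  rw [← d.φ_pick r.1, d.kap_φ]
  exact short_atom (Or.inl (Or.inr ⟨(i, r), ⟨trivial, hr⟩, rfl⟩))

/-- Homomorphisms on `Q` agree if they agree on the generators. -/
theorem hom_ext {H : Type} [Group H] {f f' : Q →* H}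
    (h : ∀ x, f (d.φ (FreeGroup.of x)) = f' (d.φ (FreeGroup.of x))) : f = f' :=
  (MonoidHom.cancel_right d.surj).1 (FreeGroup.ext_hom _ _ h)

theorem kap_conj (π : Perm Child) (i : Child) (g : Q) :
    d.D π * d.kap i g * (d.D π)⁻¹ = d.kap (π i) g := by
  refine DFunLike.congr_fun (d.hom_ext (f := (MulAut.conj (d.D π)).toMonoidHom.comp (d.kap i))
    (f' := d.kap (π i)) fun x => ?_) g
  refine (((d.short_D π).mul (d.short_kap_gen i x)).mul (d.short_D π).inv).eq
    (d.short_kap_gen _ x) (by omega) ?_
  rw [map_mul, map_mul, map_inv, toP_D, toP_kap, toP_kap, piP_conj_DP]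
  congr 1
  funext a
  simp [Pi.mulSingle_apply, Perm.inv_def, Equiv.symm_apply_eq]

theorem kap_commute_kap {i j : Child} (h : i ≠ j) (g g' : Q) :
    Commute (d.kap i g) (d.kap j g') := by
  have main : ∀ x g', Commute (d.kap i (d.φ (FreeGroup.of x))) (d.kap j g') := by
    intro x g'
    obtain ⟨w, rfl⟩ := d.surj g'
    induction w using FreeGroup.induction_on with
    | C1 => simp
    | of y =>
      refine (d.short_kap_gen i x).commute (d.short_kap_gen j y) (by omega) ?_
      rw [toP_kap, toP_kap]
      exact (Pi.mulSingle_commute (f := fun _ : Child => Q) h _ _).map piP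
    | inv_of y hy => rw [map_inv, map_inv]; exact hy.inv_right
    | mul u v hu hv => rw [map_mul, map_mul]; exact hu.mul_right hv
  obtain ⟨w, rfl⟩ := d.surj g
  induction w using FreeGroup.induction_on with
  | C1 => simp
  | of y => exact main y g'
  | inv_of y hy => rw [map_inv, map_inv]; exact hy.inv_left
  | mul u v hu hv => rw [map_mul, map_mul]; exact hu.mul_left hv

/-- A tuple of elements of `Q` on the cones. -/
noncomputable def pi : (Child → Q) →* d.G :=
  MonoidHom.noncommPiCoprod d.kap fun _ _ h x y => d.kap_commute_kap h x y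

theorem pi_mulSingle (i : Child) (g : Q) : d.pi (Pi.mulSingle i g) = d.kap i g :=
  MonoidHom.noncommPiCoprod_mulSingle (ϕ := d.kap) i g

omit [TopologicalSpace Y] [MulAction Q Y] [ContinuousConstSMul Q Y] in
/-- Homomorphisms on tuples agree if they agree on single cones. -/
theorem tuple_ext {H : Type} [Group H] {f f' : (Child → Q) →* H}
    (h : ∀ i g, f (Pi.mulSingle i g) = f' (Pi.mulSingle i g)) (v : Child → Q) : f v = f' v :=
  Subgroup.pi_mem_of_mulSingle_mem (H := MonoidHom.eqLocus f f') v fun i => h i (v i)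

theorem toP_pi (v : Child → Q) : d.toP (d.pi v) = piP v := by
  have hg : ∀ i g, (d.toP.comp d.pi) (Pi.mulSingle i g) =
      (piP : (Child → Q) →* Perm (Y × Child)) (Pi.mulSingle i g) := fun i g => by
    simp only [MonoidHom.comp_apply]
    rw [pi_mulSingle]
    exact d.toP_kap i g
  have h := tuple_ext hg v
  rw [MonoidHom.comp_apply] at h
  exact h

theorem pi_conj (π : Perm Child) (v : Child → Q) :
    d.D π * d.pi v * (d.D π)⁻¹ = d.pi (v ∘ ⇑π⁻¹) := by
  let sh : (Child → Q) →* (Child → Q) :=
    { toFun := fun v => v ∘ ⇑π⁻¹, map_one' := rfl, map_mul' := fun _ _ => rfl }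
  have hg : ∀ i g, ((MulAut.conj (d.D π)).toMonoidHom.comp d.pi) (Pi.mulSingle i g) =
      (d.pi.comp sh) (Pi.mulSingle i g) := fun i g => by
    simp only [MonoidHom.comp_apply, MulEquiv.coe_toMonoidHom, MulAut.conj_apply]
    have e : Pi.mulSingle (π i) g = sh (Pi.mulSingle i g) := funext fun a => by
      simp [sh, Pi.mulSingle_apply, Perm.inv_def, Equiv.symm_apply_eq]
    rw [pi_mulSingle, kap_conj, ← pi_mulSingle, e]
  have h := tuple_ext hg v
  simp only [MonoidHom.comp_apply, MulEquiv.coe_toMonoidHom, MulAut.conj_apply] at h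
  exact h

attribute [irreducible] pi

/-- A three-cycle over a clopen of the base. -/
def tri (U : {U // U ∈ d.P.base}) (σ : Tri 64) : d.G := PresentedGroup.of (.inr (.inr (U, σ)))

theorem short_tri (U : {U // U ∈ d.P.base}) (σ : Tri 64) : d.Short 1 (d.tri U σ) := d.short_of _

@[simp] theorem toP_tri (U : {U // U ∈ d.P.base}) (σ : Tri 64) :
    d.toP (d.tri U σ) = PU U.1 (cp σ.1) := by
  simp [tri, toP, PresentedGroup.toGroup.of, val]

end Data

end Vale.Agent.P193.Bh.Slots
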