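import Vale.Agent.P193.Bh.Slots.El

/-!
# P193: slots, the laws of the exchanges
-/

namespace Vale.Agent.P193.Bh.Slots

open TopologicalSpace Equiv
open Vale.Agent.P193.Fp
open Vale.Agent.P196.Fp (Comp W NoSign)

variable {Y Q : Type} [TopologicalSpace Y] [Group Q] [MulAction Q Y] [ContinuousConstSMul Q Y]

/-- No component has a sign. -/
def Halvable (Y Q : Type) [TopologicalSpace Y] [Group Q] [MulAction Q Y]
    [ContinuousConstSMul Q Y] : Prop :=
  ∀ U : Clopens Y,
    U = ⊤ ∨ ∃ (V : Clopens Y) (g : Q), Disjoint V (smulC g V) ∧ U = V ⊔ smulC g V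

namespace Data

variable {d : Data Y Q} (hH : Halvable Y Q) {a b c f a' b' c' f' : Child} {U V : Clopens Y}
include hH

omit hH in
theorem el2_sup (h : Disjoint U V) (g : Q) (a b c f : Child) :
    d.el2 (U ⊔ V) g a b c f = d.el2 U g a b c f * d.el2 V g a b c f := by
  simp only [el2, W0]
  rw [d.comp_eq_sum h, P196.Fp.W_sum]
  group

theorem el2_sq (h : [a, b, c, f].Nodup) (g : Q) :
    d.el2 U g a b c f * d.el2 U g a b c f = 1 := by
  rw [el2]
  calc _ = d.pi (twist g b f) * (d.W0 U a b c f * d.W0 U a b c f) *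
        (d.pi (twist g b f))⁻¹ := by group
    _ = _ := by rw [W0, P196.Fp.W_sq (d.noSign hH U) (nodup_num.2 h)]; group

theorem el2_swap (h : [a, b, c, f].Nodup) (g : Q) :
    d.el2 U g c f a b = d.el2 U g a b c f := by
  rw [el2, el2, W0, W0, P196.Fp.W_swap (d.noSign hH U) (nodup_num.2 h)]
  rw [show twist g f b = twist g b f from funext fun x => by simp [twist, or_comm]]

theorem el2_flip (h : [a, b, c, f].Nodup) (g : Q) :
    d.el2 (smulC g U) g⁻¹ b a f c = d.el2 U g a b c f := by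
  have n0 := nodup_num.2 h
  have hh := h
  simp only [List.nodup_cons, List.mem_cons, List.not_mem_nil, or_false, not_or] at hh
  obtain ⟨⟨ab, ac, af⟩, ⟨bc, bf⟩, ⟨cf, -⟩⟩ := hh
  have n1 : [b, a, f, c].Nodup := by simp [Ne.symm ab, bf, bc, af, ac, Ne.symm cf]
  have n2 : [num b, num a, num c, num f].Nodup :=
    nodup_num.2 (by simp [Ne.symm ab, bf, bc, af, ac, cf])
  have ew : d.W0 U b a f c = d.W0 U a b c f := by
    rw [W0, W0, P196.Fp.W_flip' (d.noSign hH U) n2, P196.Fp.W_flip (d.noSign hH U) n0]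
  rw [d.el2_eq n1 (twist g⁻¹ a c) (by simp [twist, bc, Ne.symm ab]) (by simp [twist])
    (by simp [twist, Ne.symm af, Ne.symm cf]) (by simp [twist]),
    d.el2_eq h (twist g⁻¹ a c * fun _ => g) (by simp [twist])
      (by simp [twist, bc, Ne.symm ab]) (by simp [twist])
      (by simp [twist, Ne.symm af, Ne.symm cf]), map_mul, W0_smul, ew]
  group

theorem el2_chain {p q : Child} (h : [a, b, c, f, p, q].Nodup) (g : Q) :
    d.el2 U g a b c f * d.el2 U g c f p q = d.el2 U g a b p q := by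
  have hn : [num a, num b, num c, num f, num p, num q].Nodup :=
    (List.nodup_map_iff (l := [a, b, c, f, p, q]) num.injective).2 h
  have e := P196.Fp.W_chain (d.noSign hH U) hn
  simp only [List.nodup_cons, List.mem_cons, List.not_mem_nil, or_false, not_or] at h
  obtain ⟨⟨ab, ac, af, ap, aq⟩, ⟨bc, bf, bp, bq⟩, ⟨cf, cp, cq⟩, ⟨fp, fq⟩, ⟨pq, -⟩⟩ := h
  let v : Child → Q := fun x => if x = b ∨ x = f ∨ x = q then g else 1
  have va : v a = 1 := by simp [v, ab, af, aq]
  have vc : v c = 1 := by simp [v, Ne.symm bc, cf, cq]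
  have vp : v p = 1 := by simp [v, Ne.symm bp, Ne.symm fp, pq]
  rw [d.el2_eq (by simp [ab, ac, af, bc, bf, cf]) v va (by simp [v]) vc (by simp [v]),
    d.el2_eq (by simp [cf, cp, cq, fp, fq, pq]) v vc (by simp [v]) vp (by simp [v]),
    d.el2_eq (by simp [ab, ap, aq, bp, bq, pq]) v va (by simp [v]) vp (by simp [v]),
    show d.W0 U a b p q = d.W0 U a b c f * d.W0 U c f p q from e.symm]
  group

theorem el2_tri (h : [a, b, c, a', b', c'].Nodup) (g k : Q) :
    d.el2 U g a b a' b' * d.el2 (smulC g U) k b c b' c' * d.el2 U g a b a' b' =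
      d.el2 U (k * g) a c a' c' := by
  simp only [List.nodup_cons, List.mem_cons, List.not_mem_nil, or_false, not_or] at h
  obtain ⟨⟨ab, ac, aa', ab', ac'⟩, ⟨bc, ba', bb', bc'⟩, ⟨ca', cb', cc'⟩, ⟨a'b', a'c'⟩,
    ⟨b'c', -⟩⟩ := h
  let v : Child → Q := fun x => if x = b ∨ x = b' then g else if x = c ∨ x = c' then k * g else 1
  have va : v a = 1 := by simp [v, ab, ab', ac, ac']
  have va' : v a' = 1 := by simp [v, Ne.symm ba', a'b', Ne.symm ca', a'c']
  have vc : v c = k * g := by simp [v, Ne.symm bc, cb']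
  have vc' : v c' = k * g := by simp [v, Ne.symm bc', Ne.symm b'c']
  have n1 : [a, b, a', b'].Nodup := by simp [ab, aa', ab', ba', bb', a'b']
  have n2 : [b, c, b', c'].Nodup := by simp [bc, bb', bc', cb', cc', b'c']
  have n3 : [a, c, a', c'].Nodup := by simp [ac, aa', ac', ca', cc', a'c']
  rw [d.el2_eq n1 v va (by simp [v]) va' (by simp [v]),
    d.el2_eq n2 (v * (fun _ => g)⁻¹) (by simp [v]) (by simp [vc]) (by simp [v]) (by simp [vc']),
    d.el2_eq n3 v va vc va' vc', map_mul, map_inv, W0_smul]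
  have key : d.W0 U a b a' b' * d.W0 U b c b' c' * d.W0 U a b a' b' = d.W0 U a c a' c' := by
    have hm := P196.Fp.W_map (d.comp U) (a := num b) (b := num c) (c := num b') (d := num c')
      (P196.Fp.W_lifts (d.comp U) (nodup_num.2 n1))
    simp [swap_apply_of_ne_of_ne, num.injective.ne_iff, ba', bb', Ne.symm ac, Ne.symm bc,
      Ne.symm ab, Ne.symm aa', Ne.symm ba', ca', cb', Ne.symm cc', Ne.symm a'c', Ne.symm b'c',
      Ne.symm ac', Ne.symm bc', Ne.symm a'b', Ne.symm ab', Ne.symm bb'] at hm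
    rw [inv_eq_of_mul_eq_one_right (P196.Fp.W_sq (d.noSign hH U) (nodup_num.2 n1))] at hm
    exact hm
  rw [← key]
  group

omit hH in
theorem el2_mem_Kc {S : Finset Child} (ha : a ∈ S) (hb : b ∈ S) (hc : c ∈ S) (hf : f ∈ S)
    (h9 : 9 ≤ S.card) (g : Q) : d.el2 U g a b c f ∈ d.Kc S := by
  have hp : d.pi (twist g b f) ∈ d.Kc S := pi_mem fun x hx => by
    simp [twist, show x ≠ b from fun e => hx (e ▸ hb), show x ≠ f from fun e => hx (e ▸ hf)]
  exact mul_mem (mul_mem hp (d.W0_mem_nine ha hb hc hf h9)) (inv_mem hp)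

omit hH in
theorem commute_of_disjoint_cones (g k : Q)
    (h : ∀ x ∈ [a, b, c, f], x ∉ [a', b', c', f']) :
    Commute (d.el2 U g a b c f) (d.el2 V k a' b' c' f') := by
  classical
  obtain ⟨l, hl, hn, hd⟩ := exists_fresh_list 5 ({a, b, c, f} ∪ {a', b', c', f'}) (by
    have := Finset.card_union_le ({a, b, c, f} : Finset Child) {a', b', c', f'}
    have := card_quad a b c f
    have := card_quad a' b' c' f'
    omega)
  let X : Finset Child := {a', b', c', f'} ∪ l.toFinset
  have hX : X.card ≤ 9 := (Finset.card_union_le _ _).trans (by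
    have := card_quad a' b' c' f'
    have := List.toFinset_card_le l
    omega)
  have hnot : ∀ x ∈ [a, b, c, f], x ∈ Xᶜ := by
    intro x hx
    simp only [X, Finset.mem_compl, Finset.mem_union, List.mem_toFinset, not_or]
    exact ⟨by simpa using h x hx, fun hxl => hd x hxl (Finset.mem_union_left _ (by simpa using hx))⟩
  refine K_comm (S := Xᶜ) (T := X) disjoint_compl_left
    (el2_mem_Kc (hnot a (by simp)) (hnot b (by simp)) (hnot c (by simp)) (hnot f (by simp))
      (by rw [Finset.card_compl, card_child]; omega) g) ?_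
  by_cases hq : [a', b', c', f'].Nodup
  · refine el2_mem_Kc (by simp [X]) (by simp [X]) (by simp [X]) (by simp [X]) ?_ k
    have e : [a', b', c', f'].toFinset.card = 4 := List.toFinset_card_of_nodup hq
    have dj : Disjoint ({a', b', c', f'} : Finset Child) l.toFinset :=
      Finset.disjoint_right.2 fun x hx hx' =>
        hd x (List.mem_toFinset.1 hx) (Finset.mem_union_right _ hx')
    rw [Finset.card_union_of_disjoint dj, List.toFinset_card_of_nodup hn, hl]
    simp only [List.toFinset_cons, List.toFinset_nil, insert_empty_eq] at e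
    omega
  · have : d.el2 V k a' b' c' f' = 1 := by
      rw [el2, W0, P196.Fp.W, dif_neg (mt nodup_num.1 hq)]; group
    rw [this]; exact one_mem _

omit hH in
/-- The letters of the decomposition commute. -/
theorem W0_commute (h : ¬ Disjoint U V → ∀ x ∈ [a, b, c, f], x ∉ [a', b', c', f']) :
    Commute (d.W0 U a b c f) (d.W0 V a' b' c' f') := by
  by_cases hd : Disjoint U V
  · exact P196.Fp.W_orth (d.comp_sup hd).1
  · rw [← el2_one_g, ← el2_one_g]
    exact commute_of_disjoint_cones _ _ (h hd)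

end Data

/-- The two exchanges cut at fresh cones. -/
theorem Data.el2_dec {d : Data Y Q} (hH : Halvable Y Q) {p q r s e₁ e₂ f₁ f₂ : Child}
    {W : Clopens Y} (h1 : [p, e₁, q, r, e₂, s].Nodup) (h2 : [q, f₁, e₁, s, f₂, e₂].Nodup)
    (h : Q) :
    d.el2 W h p q r s = d.W0 W p e₁ r e₂ *
      (d.W0 (smulC h W) q f₁ s f₂ * d.el2 (smulC h W) h⁻¹ f₁ e₁ f₂ e₂ *
        d.W0 (smulC h W) q f₁ s f₂) * d.W0 W p e₁ r e₂ := by
  have t1 := Data.el2_tri (d := d) (U := W) hH h1 1 h
  rw [smulC_one, mul_one, Data.el2_one_g] at t1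
  have t2 := Data.el2_tri (d := d) (U := smulC h W) hH h2 1 h⁻¹
  rw [smulC_one, mul_one, Data.el2_one_g] at t2
  have n4 : [e₁, q, e₂, s].Nodup := by
    simp only [List.nodup_cons, List.mem_cons, List.not_mem_nil, or_false, not_or,
      List.nodup_nil, and_true, not_false_eq_true] at h1 ⊢
    tauto
  rw [← t1, ← Data.el2_flip hH n4 h, ← t2]

theorem commute_sandwich {G : Type*} [Group G] {A B M A' B' M' : G} (h1 : Commute A A')
    (h2 : Commute A B') (h3 : Commute A M') (h4 : Commute B A') (h5 : Commute B B')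
    (h6 : Commute B M') (h7 : Commute M A') (h8 : Commute M B') (h9 : Commute M M') :
    Commute (A * (B * M * B) * A) (A' * (B' * M' * B') * A') := by
  have r : ∀ {x : G}, Commute x A' → Commute x B' → Commute x M' →
      Commute x (A' * (B' * M' * B') * A') :=
    fun a b m => (a.mul_right ((b.mul_right m).mul_right b)).mul_right a
  exact ((r h1 h2 h3).mul_left (((r h4 h5 h6).mul_left (r h7 h8 h9)).mul_left (r h4 h5 h6))).mul_left
    (r h1 h2 h3)

/-- Eight cones avoiding two quadruples. -/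
theorem exists_fresh_eight (a b c f a' b' c' f' : Child) :
    ∃ e : Fin 8 → Child, Function.Injective e ∧ ∀ i, e i ∉ [a, b, c, f, a', b', c', f'] := by
  classical
  obtain ⟨l, hl, hn, hd⟩ := exists_fresh_list 8 [a, b, c, f, a', b', c', f'].toFinset
    (by have := List.toFinset_card_le [a, b, c, f, a', b', c', f']; simp at this ⊢; omega)
  refine ⟨fun i => l[i.1]'(by omega), fun i j h => Fin.ext ?_, fun i => ?_⟩
  · exact (hn.getElem_inj_iff).1 h
  · intro hi
    exact hd _ (List.getElem_mem _) (List.mem_toFinset.2 hi)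

omit [Group Q] [MulAction Q Y] [ContinuousConstSMul Q Y] in
theorem disjoint_base {U V : Clopens Y} {x : Child} {A B : Set (Pt Y)} (h : Disjoint A B)
    (hA : cyl (U : Set Y) x.word ⊆ A) (hB : cyl (V : Set Y) x.word ⊆ B) : Disjoint U V := by
  refine disjoint_clopens.2 fun y h1 h2 => Set.disjoint_left.1 h (hA (mk_mem_cyl h1 fun _ => false))
    (hB (mk_mem_cyl h2 _))

theorem Data.el2_comm {d : Data Y Q} (hH : Halvable Y Q) {a b c f a' b' c' f' : Child}
    {U V : Clopens Y} (g k : Q) (n : [a, b, c, f].Nodup) (n' : [a', b', c', f'].Nodup)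
    (hd : Disjoint
      ((⟨U, g, a.word, b.word⟩ : Box Y Q).supp ∪ (⟨U, g, c.word, f.word⟩ : Box Y Q).supp)
      ((⟨V, k, a'.word, b'.word⟩ : Box Y Q).supp ∪ (⟨V, k, c'.word, f'.word⟩ : Box Y Q).supp)) :
    Commute (d.el2 U g a b c f) (d.el2 V k a' b' c' f') := by
  classical
  have s1 : ∀ x ∈ [a, c], ∀ x' ∈ [a', c'], x = x' → Disjoint U V := by
    intro x hx x' hx' e
    subst e
    refine disjoint_base hd (fun z hz => ?_) (fun z hz => ?_) (x := x)
    · simp at hx; rcases hx with rfl | rfl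
      exacts [Or.inl (Or.inl hz), Or.inr (Or.inl hz)]
    · simp at hx'; rcases hx' with rfl | rfl
      exacts [Or.inl (Or.inl hz), Or.inr (Or.inl hz)]
  have s2 : ∀ x ∈ [a, c], ∀ x' ∈ [b', f'], x = x' → Disjoint U (smulC k V) := by
    intro x hx x' hx' e
    subst e
    refine disjoint_base hd (fun z hz => ?_) (fun z hz => ?_) (x := x)
    · simp at hx; rcases hx with rfl | rfl
      exacts [Or.inl (Or.inl hz), Or.inr (Or.inl hz)]
    · simp at hx'; rcases hx' with rfl | rfl
      exacts [Or.inl (Or.inr hz), Or.inr (Or.inr hz)]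
  have s3 : ∀ x ∈ [b, f], ∀ x' ∈ [a', c'], x = x' → Disjoint (smulC g U) V := by
    intro x hx x' hx' e
    subst e
    refine disjoint_base hd (fun z hz => ?_) (fun z hz => ?_) (x := x)
    · simp at hx; rcases hx with rfl | rfl
      exacts [Or.inl (Or.inr hz), Or.inr (Or.inr hz)]
    · simp at hx'; rcases hx' with rfl | rfl
      exacts [Or.inl (Or.inl hz), Or.inr (Or.inl hz)]
  have s4 : ∀ x ∈ [b, f], ∀ x' ∈ [b', f'], x = x' → Disjoint (smulC g U) (smulC k V) := by
    intro x hx x' hx' e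
    subst e
    refine disjoint_base hd (fun z hz => ?_) (fun z hz => ?_) (x := x)
    · simp at hx; rcases hx with rfl | rfl
      exacts [Or.inl (Or.inr hz), Or.inr (Or.inr hz)]
    · simp at hx'; rcases hx' with rfl | rfl
      exacts [Or.inl (Or.inr hz), Or.inr (Or.inr hz)]
  obtain ⟨e, he, hT⟩ := exists_fresh_eight a b c f a' b' c' f'
  simp only [List.mem_cons, List.not_mem_nil, or_false, not_or] at hT
  obtain ⟨za, zb, zc, zf, za', zb', zc', zf'⟩ :
      (∀ i, a ≠ e i) ∧ (∀ i, b ≠ e i) ∧ (∀ i, c ≠ e i) ∧ (∀ i, f ≠ e i) ∧ (∀ i, a' ≠ e i) ∧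
        (∀ i, b' ≠ e i) ∧ (∀ i, c' ≠ e i) ∧ (∀ i, f' ≠ e i) :=
    ⟨fun i => Ne.symm (hT i).1, fun i => Ne.symm (hT i).2.1, fun i => Ne.symm (hT i).2.2.1,
      fun i => Ne.symm (hT i).2.2.2.1, fun i => Ne.symm (hT i).2.2.2.2.1,
      fun i => Ne.symm (hT i).2.2.2.2.2.1, fun i => Ne.symm (hT i).2.2.2.2.2.2.1,
      fun i => Ne.symm (hT i).2.2.2.2.2.2.2⟩
  have n6 : ∀ {p q r s : Child}, [p, q, r, s].Nodup → (∀ i, p ≠ e i) → (∀ i, q ≠ e i) →
      (∀ i, r ≠ e i) → (∀ i, s ≠ e i) → ∀ i j k l : Fin 8, i ≠ j → i ≠ k → i ≠ l → j ≠ k →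
        j ≠ l → k ≠ l →
        [p, e i, q, r, e j, s].Nodup ∧ [q, e k, e i, s, e l, e j].Nodup := by
    intro p q r s hn hp hq hr hs i j k l ij ik il jk jl kl
    simp only [List.nodup_cons, List.mem_cons, List.not_mem_nil, or_false, not_or] at hn
    obtain ⟨⟨pq, pr, ps⟩, ⟨qr, qs⟩, ⟨rs, -⟩⟩ := hn
    constructor <;>
      simp [pq, pr, ps, qr, qs, rs, hp, hq, hr, hs, Ne.symm (hq _), Ne.symm (hr _),
        Ne.symm (hs _), he.eq_iff, ij, il, kl, Ne.symm ik, Ne.symm il, Ne.symm jk, Ne.symm jl]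
  obtain ⟨h1, h2⟩ := n6 n za zb zc zf 0 1 2 3 (by decide) (by decide) (by decide) (by decide)
    (by decide) (by decide)
  obtain ⟨h1', h2'⟩ := n6 n' za' zb' zc' zf' 4 5 6 7 (by decide) (by decide) (by decide)
    (by decide) (by decide) (by decide)
  rw [Data.el2_dec hH h1 h2 g, Data.el2_dec hH h1' h2' k]
  have fr : ∀ {i j : Fin 8}, i ≠ j → e i ≠ e j := fun h => he.ne h
  refine commute_sandwich ?_ ?_ ?_ ?_ ?_ ?_ ?_ ?_ ?_
  · refine Data.W0_commute fun hne => ?_
    have k1 : ∀ x ∈ [a, c], ∀ x' ∈ [a', c'], x ≠ x' :=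
      fun x hx x' hx' e => hne (s1 x hx x' hx' e)
    simp only [List.mem_cons, List.not_mem_nil, or_false, forall_eq_or_imp, forall_eq] at k1
    obtain ⟨⟨d1, d2⟩, d3, d4⟩ := k1
    simp [Ne.symm (za' _), Ne.symm (zc' _), za, zc, fr, d1, d2, d3, d4]
  · refine Data.W0_commute fun hne => ?_
    have k1 : ∀ x ∈ [a, c], ∀ x' ∈ [b', f'], x ≠ x' :=
      fun x hx x' hx' e => hne (s2 x hx x' hx' e)
    simp only [List.mem_cons, List.not_mem_nil, or_false, forall_eq_or_imp, forall_eq] at k1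
    obtain ⟨⟨d1, d2⟩, d3, d4⟩ := k1
    simp [Ne.symm (zb' _), Ne.symm (zf' _), za, zc, fr, d1, d2, d3, d4]
  · rw [← Data.el2_one_g]
    exact Data.commute_of_disjoint_cones _ _ (by simp [za, zc, fr])
  · refine Data.W0_commute fun hne => ?_
    have k1 : ∀ x ∈ [b, f], ∀ x' ∈ [a', c'], x ≠ x' :=
      fun x hx x' hx' e => hne (s3 x hx x' hx' e)
    simp only [List.mem_cons, List.not_mem_nil, or_false, forall_eq_or_imp, forall_eq] at k1
    obtain ⟨⟨d1, d2⟩, d3, d4⟩ := k1
    simp [Ne.symm (za' _), Ne.symm (zc' _), zb, zf, fr, d1, d2, d3, d4]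
  · refine Data.W0_commute fun hne => ?_
    have k1 : ∀ x ∈ [b, f], ∀ x' ∈ [b', f'], x ≠ x' :=
      fun x hx x' hx' e => hne (s4 x hx x' hx' e)
    simp only [List.mem_cons, List.not_mem_nil, or_false, forall_eq_or_imp, forall_eq] at k1
    obtain ⟨⟨d1, d2⟩, d3, d4⟩ := k1
    simp [Ne.symm (zb' _), Ne.symm (zf' _), zb, zf, fr, d1, d2, d3, d4]
  · rw [← Data.el2_one_g]
    exact Data.commute_of_disjoint_cones _ _ (by simp [zb, zf, fr])
  · rw [← Data.el2_one_g]
    exact Data.commute_of_disjoint_cones _ _ (by simp [Ne.symm (za' _), Ne.symm (zc' _), fr])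
  · rw [← Data.el2_one_g]
    exact Data.commute_of_disjoint_cones _ _ (by simp [Ne.symm (zb' _), Ne.symm (zf' _), fr])
  · exact Data.commute_of_disjoint_cones _ _ (by simp [fr])

end Vale.Agent.P193.Bh.Slots
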