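import Vale.Agent.P193.Bh.Slots.Laws

/-!
# P193: every site has slots on a finitely presented group
-/

namespace Vale.Agent.P193.Bh.Slots

open TopologicalSpace Equiv
open Vale.Agent.P193.Fp
open Vale.Agent.P196.Fp (Tri cyc)

variable {Y Q : Type} [TopologicalSpace Y] [Group Q] [MulAction Q Y] [ContinuousConstSMul Q Y]
  (d : Data Y Q)

namespace Data

/-- The action on the points. -/
noncomputable def toPt : d.G →* Perm (Pt Y) := lift.comp d.toP

theorem word_prefix_iff {x y : Child} {s : ℕ → Bool} :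
    (∃ t, app y.word s = app x.word t) ↔ y = x :=
  ⟨fun ⟨t, ht⟩ => word_injective (app_inj_of_length (by rw [word_length, word_length]) ht).1,
    fun h => ⟨s, h ▸ rfl⟩⟩

open Classical in
theorem move_word (U : Clopens Y) (g : Q) (a b x : Child) (y : Y) (t : ℕ → Bool) :
    Box.move (⟨U, g, a.word, b.word⟩ : Box Y Q) (y, app x.word t) =
      (if x = a ∧ y ∈ U then (g • y, app b.word t)
        else if x = b ∧ g⁻¹ • y ∈ U then (g⁻¹ • y, app a.word t) else (y, app x.word t)) := by
  classical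
  have hd : ((y, app x.word t) : Pt Y) ∈ (⟨U, g, a.word, b.word⟩ : Box Y Q).dom ↔
      x = a ∧ y ∈ U := by
    show y ∈ U ∧ (∃ s, app x.word t = app a.word s) ↔ _
    rw [word_prefix_iff]; exact And.comm
  have hc : ((y, app x.word t) : Pt Y) ∈ (⟨U, g, a.word, b.word⟩ : Box Y Q).cod ↔
      x = b ∧ g⁻¹ • y ∈ U := by
    show g⁻¹ • y ∈ U ∧ (∃ s, app x.word t = app b.word s) ↔ _
    rw [word_prefix_iff]; exact And.comm
  simp only [Box.move, hd, hc, word_length, sdrop_word]

theorem toPt_el2 (U : Clopens Y) (g : Q) {a b c f : Child} (h : [a, b, c, f].Nodup) (z : Pt Y) :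
    d.toPt (d.el2 U g a b c f) z =
      Box.move ⟨U, g, a.word, b.word⟩ (Box.move ⟨U, g, c.word, f.word⟩ z) := by
  rw [pt_eq z]
  generalize z.1 = y
  generalize head6 z.2 = x
  generalize sdrop 6 z.2 = t
  have e : d.toP (d.el2 U g a b c f) =
      piP (twist g b f) * PU U (swap a b * swap c f) * (piP (twist g b f))⁻¹ := by
    rw [el2, map_mul d.toP, map_mul d.toP, map_inv d.toP, toP_W0 d U h, toP_pi]
  rw [toPt, MonoidHom.comp_apply, e, lift_apply, Perm.mul_apply, Perm.mul_apply, piP_inv_apply]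
  simp only [List.nodup_cons, List.mem_cons, List.not_mem_nil, or_false, not_or] at h
  obtain ⟨⟨ab, ac, af⟩, ⟨bc, bf⟩, ⟨cf, -⟩⟩ := h
  by_cases xa : x = a
  · subst xa
    by_cases hy : y ∈ U <;>
      simp [move_word, twist, PU_of_mem, PU_of_not, swap_apply_of_ne_of_ne, hy, ab, ac, af]
  by_cases xb : x = b
  · subst xb
    by_cases hy : g⁻¹ • y ∈ U <;>
      simp [move_word, twist, PU_of_mem, PU_of_not, swap_apply_of_ne_of_ne, hy, bc, bf, ab, af,
        Ne.symm ab]
  by_cases xc : x = c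
  · subst xc
    by_cases hy : y ∈ U <;>
      simp [move_word, twist, PU_of_mem, PU_of_not, swap_apply_of_ne_of_ne, hy, cf, af, Ne.symm bc,
        Ne.symm ac, Ne.symm af, Ne.symm bf, Ne.symm cf]
  by_cases xf : x = f
  · subst xf
    by_cases hy : g⁻¹ • y ∈ U <;>
      simp [move_word, twist, PU_of_mem, PU_of_not, swap_apply_of_ne_of_ne, hy, cf, ac, bc,
        Ne.symm af, Ne.symm bf, Ne.symm cf, Ne.symm bc, Ne.symm ac]
  by_cases hy : y ∈ U <;>
    simp [move_word, twist, PU_of_mem, PU_of_not, swap_apply_of_ne_of_ne, hy, xa, xb, xc, xf]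

theorem toPt_D (π : Perm Child) (a : Child) (y : Y) (t : ℕ → Bool) :
    d.toPt (d.D π) (y, app a.word t) = (y, app (π a).word t) := by
  rw [toPt, MonoidHom.comp_apply, toP_D, lift_apply, DP_apply]

theorem toPt_kap (i a : Child) (g : Q) (y : Y) (t : ℕ → Bool) :
    d.toPt (d.kap i g) (y, app a.word t) = (if a = i then g • y else y, app a.word t) := by
  rw [toPt, MonoidHom.comp_apply, toP_kap, lift_apply, piP_apply]
  by_cases h : a = i
  · subst h; simp
  · simp [h]

open Classical in
/-- Generators of `Q`. -/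
noncomputable def qgen : Finset Q := Finset.univ.image fun x => d.φ (FreeGroup.of x)

theorem qgen_top : Subgroup.closure (d.qgen : Set Q) = ⊤ := by
  rw [eq_top_iff]
  rintro g -
  obtain ⟨w, rfl⟩ := d.surj g
  induction w using FreeGroup.induction_on with
  | C1 => rw [map_one]; exact one_mem _
  | of x => exact Subgroup.subset_closure (by simp [qgen])
  | inv_of x hx => rw [map_inv]; exact inv_mem hx
  | mul u v hu hv => rw [map_mul]; exact mul_mem hu hv

/-- The letters' subgroup used by the slot systems. -/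
noncomputable def slotS (S : Finset Child) : Subgroup d.G :=
  slotK d.D d.kap d.el2 d.P.base d.qgen S

theorem slotS_le (S : Finset Child) : d.slotS S ≤ d.Kc S := by
  refine (Subgroup.closure_le _).2 ?_
  rintro x ((⟨π, hπ, rfl⟩ | ⟨i, hi, g, -, rfl⟩) | ⟨U, hU, a, ha, b, hb, c, hc, f, hf, hn, rfl⟩)
  · exact D_mem hπ
  · exact kap_mem hi g
  · have n' := nodup_num.2 hn
    have hh := n'
    simp only [List.nodup_cons, List.mem_cons, List.not_mem_nil, or_false, not_or] at hh
    obtain ⟨⟨ab, ac, af⟩, ⟨bc, -⟩, ⟨cf, -⟩⟩ := hh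
    rw [el2_one_g, W0, P196.Fp.W_eq _ n' ⟨ac, Ne.symm bc, ab⟩ ⟨ac, cf, af⟩, d.comp_base hU]
    refine mul_mem (tri_mem ?_) (tri_mem ?_) <;>
    · intro x hx
      simp only [cp_apply]
      rw [P196.Fp.cyc_apply_of_ne, Equiv.symm_apply_apply] <;>
        intro e <;> exact hx (num.injective e ▸ by assumption)

theorem le_slotS (hH : Halvable Y Q) {S : Finset Child} (h9 : 9 ≤ S.card) :
    d.Kc S ≤ d.slotS S := by
  classical
  refine (Subgroup.closure_le _).2 ?_
  rintro x ((⟨π, hπ, rfl⟩ | ⟨i, hi, g, rfl⟩) | ⟨U, σ, hσ, rfl⟩)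
  · exact Subgroup.subset_closure (Or.inl (Or.inl ⟨π, hπ, rfl⟩))
  · have hg : g ∈ (d.slotS S).comap (d.kap i) := by
      have h : Subgroup.closure (d.qgen : Set Q) ≤ (d.slotS S).comap (d.kap i) :=
        (Subgroup.closure_le _).2 fun q hq =>
          Subgroup.subset_closure (Or.inl (Or.inr ⟨i, hi, q, hq, rfl⟩))
      exact h (by rw [d.qgen_top]; trivial)
    exact hg
  · obtain ⟨p, q, r, hne, rfl⟩ := P196.Fp.exists_cyc σ
    have hS : ∀ j ∈ ({p, q, r} : Finset (Fin 64)), num.symm j ∈ S := by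
      intro j hj
      by_contra hn
      have e := hσ _ hn
      rw [cp_apply, Equiv.apply_symm_apply] at e
      have hm : j ∈ (cyc p q r hne).1.support := by rwa [P196.Fp.cyc_support]
      exact Perm.mem_support.1 hm (num.symm.injective e)
    obtain ⟨a, ha, b, hb, hab⟩ := Finset.one_lt_card.1
      (show 1 < (S.map num.toEmbedding \ {p, q, r}).card by
        have h1 := Finset.le_card_sdiff {p, q, r} (S.map num.toEmbedding)
        have h2 := Finset.card_le_three (a := p) (b := q) (c := r)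
        rw [Finset.card_map] at h1
        omega)
    simp only [Finset.mem_sdiff, Finset.mem_map, Finset.mem_insert, Finset.mem_singleton,
      Equiv.coe_toEmbedding, not_or] at ha hb
    obtain ⟨⟨a, haS, rfl⟩, ap, aq, ar⟩ := ha
    obtain ⟨⟨b, hbS, rfl⟩, bp, bq, br⟩ := hb
    have nd : [p, q, r, num a, num b].Nodup := by
      simp [hne.1, hne.2.1, hne.2.2, Ne.symm ap, Ne.symm aq, Ne.symm ar, Ne.symm bp, Ne.symm bq,
        Ne.symm br, hab]
    have e : d.tri U (cyc p q r hne) = d.el2 U.1 1 (num.symm p) (num.symm q) a b *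
        d.el2 U.1 1 (num.symm q) (num.symm r) a b := by
      have h := P196.Fp.fn_cyc_eq (d.noSign hH U.1) nd hne
      rw [el2_one_g, el2_one_g]
      simp only [W0, Equiv.apply_symm_apply]
      rw [← h, d.comp_base U.2]
      rfl
    have hmem : ∀ {u v : Fin 64}, num.symm u ∈ S → num.symm v ∈ S →
        [u, v, num a, num b].Nodup → d.el2 U.1 1 (num.symm u) (num.symm v) a b ∈ d.slotS S :=
      fun hu hv hn => Subgroup.subset_closure
        (Or.inr ⟨U.1, U.2, _, hu, _, hv, a, haS, b, hbS, by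
          rw [← nodup_num, Equiv.apply_symm_apply, Equiv.apply_symm_apply]; exact hn, rfl⟩)
    rw [e]
    simp at nd
    exact mul_mem (hmem (hS p (by simp)) (hS q (by simp)) (by simp; tauto))
      (hmem (hS q (by simp)) (hS r (by simp)) (by simp; tauto))

theorem Kc_univ : d.Kc Finset.univ = ⊤ := by
  rw [eq_top_iff, ← PresentedGroup.closure_range_of d.rels]
  refine (Subgroup.closure_le _).2 ?_
  rintro x ⟨l, rfl⟩
  rcases l with π | ⟨i, j⟩ | ⟨U, σ⟩
  · exact D_mem fun a ha => absurd (Finset.mem_univ a) ha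
  · have h := d.kap_φ i (FreeGroup.of j)
    simp only [kapW, FreeGroup.lift_apply_of] at h
    show PresentedGroup.mk d.rels (FreeGroup.of _) ∈ _
    rw [← h]
    exact kap_mem (Finset.mem_univ i) _
  · exact tri_mem fun a ha => absurd (Finset.mem_univ a) ha

/-- The slot system. -/
noncomputable def system (hH : Halvable Y Q) : SlotSystem Y Q d.G where
  toPerm := d.toPt
  D := d.D
  kap := d.kap
  el2 := d.el2
  base := d.P.base
  qgen := d.qgen
  toPerm_D := d.toPt_D
  toPerm_kap := d.toPt_kap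
  toPerm_el2 U g _ _ _ _ h z := d.toPt_el2 U g h z
  el2_sq _ g _ _ _ _ h := el2_sq hH h g
  el2_swap _ g _ _ _ _ h := el2_swap hH h g
  el2_flip _ g _ _ _ _ h := el2_flip hH h g
  el2_sup _ _ g a b c f _ h := el2_sup h g a b c f
  el2_chain _ g _ _ _ _ _ _ h := el2_chain hH h g
  el2_tri _ g k _ _ _ _ _ _ h := el2_tri hH h g k
  el2_comm _ g _ _ _ _ _ k _ _ _ _ h h' hd := el2_comm hH g k h h' hd
  el2_equiv := d.el2_equiv
  kap_equiv := d.kap_conj
  el2_mem U g a b c f _ S ha hb hc hf h9 := d.le_slotS hH h9 (el2_mem_Kc ha hb hc hf h9 g)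
  K_comm S T h x hx y hy := K_comm h (d.slotS_le S hx) (d.slotS_le T hy)
  qgen_top := d.qgen_top
  generated := eq_top_iff.2 (d.Kc_univ ▸ d.le_slotS hH (by rw [Finset.card_univ, card_child]; omega))

end Data

end Vale.Agent.P193.Bh.Slots

namespace Vale.Agent.P193.Bh

/-- Every site has slots on a finitely presented group. -/
theorem slotsGoal : SlotsGoal := by
  intro s
  obtain ⟨P⟩ := s.events
  obtain ⟨d⟩ := Slots.exists_data P s.fp
  exact ⟨d.G, inferInstance, d.fp_G, ⟨d.system s.halvable⟩⟩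

end Vale.Agent.P193.Bh
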