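import Vale.Agent.P193.Bh.Group.Interface2
import Vale.Agent.P193.Fp.Basic

/-!
# P193: slots, the permutations of the space times the cones

The uniform exchanges are permutations of `Y × Child`; they act on the points by fixing the tail
below depth six.
-/

namespace Vale.Agent.P193.Bh.Slots

open TopologicalSpace Equiv
open Vale.Agent.P193.Fp

theorem word_length (a : Child) : a.word.length = 6 := List.length_ofFn

theorem word_injective : Function.Injective Child.word := List.ofFn_injective

/-- The first six letters. -/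
def head6 (s : ℕ → Bool) : Child := fun i => s i

theorem word_head6 (s : ℕ → Bool) : (head6 s).word = stake 6 s := by
  simp [Child.word, head6, stake, sdrop, List.ofFn_succ]

theorem head6_app (a : Child) (t : ℕ → Bool) : head6 (app a.word t) = a := by
  refine word_injective ((word_head6 _).trans ?_)
  have h := stake_app a.word t
  rwa [word_length] at h

theorem sdrop_word (a : Child) (t : ℕ → Bool) : sdrop 6 (app a.word t) = t := by
  have h := sdrop_app a.word t
  rwa [word_length] at h

variable (Y : Type) in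
/-- A point is a point of the space, a cone of depth six and a tail. -/
def cut : Pt Y ≃ (Y × Child) × (ℕ → Bool) where
  toFun z := ((z.1, head6 z.2), sdrop 6 z.2)
  invFun w := (w.1.1, app w.1.2.word w.2)
  left_inv z := by
    simp only [word_head6, app_stake]
  right_inv w := by
    simp only [head6_app, sdrop_word]

theorem pt_eq {Y : Type} (z : Pt Y) : z = (z.1, app (head6 z.2).word (sdrop 6 z.2)) :=
  ((cut Y).left_inv z).symm

variable {Y : Type}

/-- A permutation of `Y × Child` as a permutation of the points. -/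
def lift : Perm (Y × Child) →* Perm (Pt Y) where
  toFun f := (cut Y).symm.permCongr (f.prodCongr (Equiv.refl _))
  map_one' := Equiv.ext fun z => by
    simp [Equiv.permCongr_apply]
  map_mul' f g := Equiv.ext fun z => by
    simp [Equiv.permCongr_apply, Perm.mul_apply]; rfl

theorem lift_apply (f : Perm (Y × Child)) (y : Y) (a : Child) (t : ℕ → Bool) :
    lift f (y, app a.word t) = ((f (y, a)).1, app (f (y, a)).2.word t) := by
  simp [lift, cut, Equiv.permCongr_apply, head6_app, sdrop_word]

theorem lift_injective : Function.Injective (lift : Perm (Y × Child) → Perm (Pt Y)) := by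
  intro f g h
  refine Equiv.ext fun ⟨y, a⟩ => ?_
  have := congrArg (fun p : Perm (Pt Y) => p (y, app a.word fun _ => false)) h
  simp only [lift_apply, Prod.mk.injEq] at this
  refine Prod.ext this.1 ?_
  have e := congrArg head6 this.2
  rwa [head6_app, head6_app] at e

/-- Permutations of the cones. -/
def DP : Perm Child →* Perm (Y × Child) where
  toFun π := (Equiv.refl Y).prodCongr π
  map_one' := Equiv.ext fun _ => rfl
  map_mul' _ _ := Equiv.ext fun _ => rfl

@[simp] theorem DP_apply (π : Perm Child) (y : Y) (a : Child) : DP π (y, a) = (y, π a) := rfl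

section Action

variable {Q : Type} [Group Q] [MulAction Q Y]

/-- An element of `Q` on each cone. -/
def piP : (Child → Q) →* Perm (Y × Child) where
  toFun v :=
    { toFun := fun w => (v w.2 • w.1, w.2)
      invFun := fun w => ((v w.2)⁻¹ • w.1, w.2)
      left_inv := fun w => by simp
      right_inv := fun w => by simp }
  map_one' := Equiv.ext fun w => by simp
  map_mul' _ _ := Equiv.ext fun w => by simp [mul_smul]

@[simp] theorem piP_apply (v : Child → Q) (y : Y) (a : Child) : piP v (y, a) = (v a • y, a) := rfl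

@[simp] theorem piP_inv_apply (v : Child → Q) (y : Y) (a : Child) :
    (piP v)⁻¹ (y, a) = ((v a)⁻¹ • y, a) := rfl

end Action

variable [TopologicalSpace Y]

open Classical in
/-- A permutation of the cones over a clopen. -/
noncomputable def PU (U : Clopens Y) : Perm Child →* Perm (Y × Child) where
  toFun π := Equiv.prodShear (Equiv.refl Y) fun y => if y ∈ U then π else 1
  map_one' := Equiv.ext fun ⟨y, a⟩ => by simp [Equiv.prodShear]
  map_mul' π ρ := Equiv.ext fun ⟨y, a⟩ => by
    by_cases h : y ∈ U <;> simp [Equiv.prodShear, h]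

theorem PU_of_mem {U : Clopens Y} (π : Perm Child) {y : Y} (h : y ∈ U) (a : Child) :
    PU U π (y, a) = (y, π a) := by simp [PU, Equiv.prodShear, h]

theorem PU_of_not {U : Clopens Y} (π : Perm Child) {y : Y} (h : y ∉ U) (a : Child) :
    PU U π (y, a) = (y, a) := by simp [PU, Equiv.prodShear, h]

theorem PU_top (π : Perm Child) : PU (⊤ : Clopens Y) π = DP π :=
  Equiv.ext fun ⟨y, a⟩ => PU_of_mem π (show y ∈ (⊤ : Clopens Y) from trivial) a

theorem PU_bot (π : Perm Child) : PU (⊥ : Clopens Y) π = 1 :=
  Equiv.ext fun ⟨y, a⟩ => PU_of_not π (show y ∉ (⊥ : Clopens Y) from id) a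

theorem PU_sup {U V : Clopens Y} (h : Disjoint U V) (π : Perm Child) :
    PU (U ⊔ V) π = PU U π * PU V π := by
  refine Equiv.ext fun ⟨y, a⟩ => ?_
  rw [Perm.mul_apply]
  by_cases hU : y ∈ U
  · have hV := disjoint_clopens.1 h y hU
    rw [PU_of_mem π (show y ∈ U ⊔ V from Or.inl hU), PU_of_not π hV, PU_of_mem π hU]
  · by_cases hV : y ∈ V
    · rw [PU_of_mem π (show y ∈ U ⊔ V from Or.inr hV), PU_of_mem π hV, PU_of_not π hU]
    · rw [PU_of_not π (show y ∉ U ⊔ V from fun h => h.elim hU hV), PU_of_not π hV,
        PU_of_not π hU]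

theorem DP_conj_PU (U : Clopens Y) (π ρ : Perm Child) :
    DP π * PU U ρ * (DP π)⁻¹ = PU U (π * ρ * π⁻¹) := by
  refine mul_inv_eq_of_eq_mul (Equiv.ext fun ⟨y, a⟩ => ?_)
  by_cases h : y ∈ U
  · simp only [Perm.mul_apply, DP_apply, PU_of_mem _ h]
    simp
  · simp only [Perm.mul_apply, DP_apply, PU_of_not _ h]

theorem PU_commute_of_disjoint {U V : Clopens Y} (h : Disjoint U V) (π ρ : Perm Child) :
    Commute (PU U π) (PU V ρ) := by
  refine Equiv.ext fun ⟨y, a⟩ => ?_
  by_cases hU : y ∈ U
  · have hV := disjoint_clopens.1 h y hU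
    simp [Perm.mul_apply, PU_of_mem, PU_of_not, hU, hV]
  · by_cases hV : y ∈ V <;> simp [Perm.mul_apply, PU_of_mem, PU_of_not, hU, hV]

/-- Two permutations of cones over clopens commute if they commute wherever both act. -/
theorem PU_commute {U V : Clopens Y} {π ρ : Perm Child} (h : Commute π ρ) :
    Commute (PU U π) (PU V ρ) := by
  refine Equiv.ext fun ⟨y, a⟩ => ?_
  have e : π (ρ a) = ρ (π a) := congrArg (fun p : Perm Child => p a) h.eq
  by_cases hU : y ∈ U <;> by_cases hV : y ∈ V <;>
    simp [Perm.mul_apply, PU_of_mem, PU_of_not, hU, hV, e]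

variable {Q : Type} [Group Q] [MulAction Q Y] [ContinuousConstSMul Q Y]

theorem piP_conj_PU (g : Q) (U : Clopens Y) (π : Perm Child) :
    piP (fun _ => g) * PU U π * (piP fun _ => g)⁻¹ = PU (smulC g U) π := by
  refine Equiv.ext fun ⟨y, a⟩ => ?_
  by_cases h : y ∈ smulC g U
  · rw [Perm.mul_apply, Perm.mul_apply, piP_inv_apply, PU_of_mem π (mem_smulC.1 h),
      PU_of_mem π h]
    simp
  · rw [Perm.mul_apply, Perm.mul_apply, piP_inv_apply, PU_of_not π (fun h' => h (mem_smulC.2 h')),
      PU_of_not π h]
    simp

omit [TopologicalSpace Y] [ContinuousConstSMul Q Y] in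
theorem piP_conj_DP (π : Perm Child) (v : Child → Q) :
    DP π * piP v * (DP π)⁻¹ = (piP (v ∘ ⇑π⁻¹) : Perm (Y × Child)) := by
  refine mul_inv_eq_of_eq_mul (Equiv.ext fun ⟨y, a⟩ => ?_)
  simp [Perm.mul_apply]

end Vale.Agent.P193.Bh.Slots
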