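import Vale.Agent.P193.Bh.Slots.Events

/-!
# P193: slots, no component has a sign

The sign of a component does not depend on the four cones, so the elements of `Q` fix it; halving
the clopen kills it.
-/

namespace Vale.Agent.P193.Bh.Slots

open TopologicalSpace Equiv
open Vale.Agent.P193.Fp
open Vale.Agent.P196.Fp (Comp W sign NoSign cyc)

variable {Y Q : Type} [TopologicalSpace Y] [Group Q] [MulAction Q Y] [ContinuousConstSMul Q Y]
  (d : Data Y Q)

namespace Data

theorem mem_cones {s : Finset (Fin 64)} {x : Child} : x ∈ cones s ↔ num x ∈ s := by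
  simp only [cones, Finset.mem_map, Equiv.coe_toEmbedding]
  exact ⟨fun ⟨j, hj, e⟩ => by rwa [← e, Equiv.apply_symm_apply], fun h => ⟨_, h, by simp⟩⟩

theorem W_move (g : Q) (e : Comp d.ctx) (a b c f : Fin 64) :
    W (d.moveComp g e) a b c f = d.pi (fun _ => g) * W e a b c f * (d.pi fun _ => g)⁻¹ := by
  unfold W
  split_ifs
  · simp only [moveComp_fn]; group
  · group

theorem nine_compl (i : Fin 64) : 9 ≤ ({i}ᶜ : Finset (Fin 64)).card := by
  rw [Finset.card_compl, Finset.card_singleton, Fintype.card_fin]; omega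

theorem sign_commute_kap (e : Comp d.ctx) {a b c f : Fin 64} (h : [a, b, c, f].Nodup) (i : Child)
    (g : Q) : Commute (sign e a b c f) (d.kap i g) := by
  obtain ⟨p, q, hpq, hp, hq⟩ := P196.Fp.exists_fresh_pair ({a, b, c, f, num i} : Finset (Fin 64))
    (by have := Finset.card_le_five (a := a) (b := b) (c := c) (d := f) (e := num i); omega)
  simp only [Finset.mem_insert, Finset.mem_singleton, not_or] at hp hq
  obtain ⟨pa, pb, pc, pf, pi'⟩ := hp
  obtain ⟨qa, qb, qc, qf, qi⟩ := hq
  let σ := cyc (num i) p q ⟨Ne.symm pi', hpq, Ne.symm qi⟩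
  have hσ : ∀ x, x ≠ q → σ.1 x ≠ num i := fun x hx e => hx (σ.1.injective
    (e.trans (P196.Fp.cyc_apply_trd (num i) p q _).symm))
  have fix := P196.Fp.fixed_of_central (P196.Fp.lifts_fn e σ) (P196.Fp.fn_mem_gen e σ)
    (P196.Fp.sign_mem_gen (e := e) (a := a) (b := b) (c := c) (d := f))
    (fun x hx => P196.Fp.sign_central e h hx)
  rw [P196.Fp.sign_equiv] at fix
  have hm : sign e (σ.1 a) (σ.1 b) (σ.1 c) (σ.1 f) ∈ d.ctx.K {num i}ᶜ := by
    refine mul_mem ?_ ?_ <;>
      refine P196.Fp.W_mem_K e ?_ (nine_compl _) <;>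
      simp [(hσ a (Ne.symm qa)).symm, (hσ b (Ne.symm qb)).symm, (hσ c (Ne.symm qc)).symm,
        (hσ f (Ne.symm qf)).symm]
  rw [fix] at hm
  exact K_comm (S := cones {num i}ᶜ) (T := {i}) (by simp [mem_cones]) hm
    (kap_mem (Finset.mem_singleton_self i) g)

theorem commute_pi {x : d.G} {v : Child → Q} (h : ∀ i, Commute x (d.kap i (v i))) :
    Commute x (d.pi v) := by
  have h' : d.pi v ∈ Subgroup.centralizer {x} :=
    Subgroup.pi_mem_of_mulSingle_mem (H := (Subgroup.centralizer {x}).comap d.pi) v fun i => by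
      rw [Subgroup.mem_comap, pi_mulSingle, Subgroup.mem_centralizer_singleton_iff]
      exact (h i).eq.symm
  exact (Subgroup.mem_centralizer_singleton_iff.1 h').symm

theorem sign_smul (g : Q) (U : Clopens Y) {a b c f : Fin 64} (h : [a, b, c, f].Nodup) :
    sign (d.comp (smulC g U)) a b c f = sign (d.comp U) a b c f := by
  have hc : Commute (d.pi fun _ => g) (sign (d.comp U) a b c f) :=
    (d.commute_pi fun i => d.sign_commute_kap _ h i g).symm
  rw [d.comp_smul, sign, sign, d.W_move]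
  calc _ = d.pi (fun _ => g) * sign (d.comp U) a b c f * (d.pi fun _ => g)⁻¹ := by
        rw [sign]; group
    _ = _ := by rw [hc.eq, mul_inv_cancel_right]; rfl

theorem comp_eq_sum {U V : Clopens Y} (h : Disjoint U V) :
    d.comp (U ⊔ V) = P196.Fp.sum (d.comp U) (d.comp V) (d.comp_sup h).1 :=
  Comp.ext (d.comp_sup h).2

theorem noSign (hH : ∀ U : Clopens Y,
      U = ⊤ ∨ ∃ (V : Clopens Y) (g : Q), Disjoint V (smulC g V) ∧ U = V ⊔ smulC g V)
    (U : Clopens Y) : NoSign (d.comp U) := by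
  intro a b c f h
  rcases hH U with rfl | ⟨V, g, hd, rfl⟩
  · rw [d.comp_top]
    have h' := h
    simp at h'
    rw [sign, P196.Fp.W_eq _ h ⟨h'.1.2.1, Ne.symm h'.2.1.1, h'.1.1⟩
      ⟨h'.1.2.1, h'.2.2, h'.1.2.2⟩]
    show d.ctx.d _ * d.ctx.d _ * (d.ctx.d _ * d.ctx.d _) = 1
    rw [← map_mul, ← map_mul, P196.Fp.cyc_mul_cyc h]
    have hc : Commute (swap c f) (swap a b) := Perm.Disjoint.commute fun i => by
      by_cases i = c <;> by_cases i = f <;> simp_all [swap_apply_of_ne_of_ne] <;> grind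
    rw [show swap a b * swap c f * (swap a b * swap c f) = 1 by
      calc _ = swap a b * (swap c f * swap a b) * swap c f := by group
        _ = _ := by rw [hc.eq]; simp, map_one]
  · rw [d.comp_eq_sum hd, P196.Fp.sign_sum, d.sign_smul g V h]
    exact P196.Fp.sign_sq _ h

end Data

end Vale.Agent.P193.Bh.Slots
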